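import Mathlib

/-! # P014Y, stage two: the shift module `ZMod q → G` and the kernel of the cyclotomic norm -/

set_option autoImplicit false
set_option linter.all false

noncomputable section

namespace Vale.Agent.P014Y.Wp.Cy

open Polynomial Finset

variable (G : Type*) [AddCommGroup G] {q : ℕ}

/-- the shift by `j` -/
def sh (j : ZMod q) : Module.End ℤ (ZMod q → G) where
  toFun Q i := Q (i - j)
  map_add' _ _ := rfl
  map_smul' _ _ := rfl

/-- the cyclotomic norm -/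
def nm (p k : ℕ) : Module.End ℤ (ZMod q → G) := ∑ j ∈ range p, sh G ((j * p ^ k : ℕ) : ZMod q)

/-- `σ - σ⁻¹` -/
def vp (q : ℕ) : Module.End ℤ (ZMod q → G) := sh G 1 - sh G (-1)

/-- the action of a polynomial in the shift -/
def ev (q : ℕ) : ℤ[X] →ₐ[ℤ] Module.End ℤ (ZMod q → G) := aeval (sh G 1)

variable {G}

theorem sh_ap (j : ZMod q) (Q : ZMod q → G) (i : ZMod q) : sh G j Q i = Q (i - j) := rfl

theorem sh_add (j j' : ZMod q) : sh G (j + j') = sh G j * sh G j' := by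
  refine LinearMap.ext fun Q => funext fun i => ?_
  show Q _ = Q _
  rw [sub_sub]

theorem sh_zero : sh G (0 : ZMod q) = 1 :=
  LinearMap.ext fun Q => funext fun i => congrArg Q (sub_zero i)

theorem sh_pow (j : ZMod q) (n : ℕ) : sh G j ^ n = sh G ((n : ZMod q) * j) := by
  induction n with
  | zero => rw [pow_zero, Nat.cast_zero, zero_mul, sh_zero]
  | succ n ih => rw [pow_succ, ih, ← sh_add, Nat.cast_succ, add_mul, one_mul]

theorem ev_X : ev G q X = sh G 1 := aeval_X _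

theorem ev_pow (n : ℕ) : ev G q (X ^ n) = sh G (n : ZMod q) := by
  rw [map_pow, ev_X, sh_pow, mul_one]

theorem ev_q : ev G q (X ^ q) = 1 := by rw [ev_pow, ZMod.natCast_self, sh_zero]

theorem ev_comm (f g : ℤ[X]) (Q : ZMod q → G) : ev G q f (ev G q g Q) = ev G q g (ev G q f Q) := by
  rw [← Module.End.mul_apply, ← map_mul, mul_comm, map_mul, Module.End.mul_apply]

theorem ev_mul (f g : ℤ[X]) (Q : ZMod q → G) : ev G q (f * g) Q = ev G q f (ev G q g Q) := by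
  rw [map_mul, Module.End.mul_apply]

theorem ev_sh [NeZero q] (j : ZMod q) : ev G q (X ^ j.val) = sh G j := by
  rw [ev_pow, ZMod.natCast_zmod_val]

/-- the polynomial of the norm -/
def Ph (p k : ℕ) : ℤ[X] := ∑ j ∈ range p, X ^ (j * p ^ k)

/-- the polynomial of `σ - σ⁻¹` -/
def Vp (q : ℕ) : ℤ[X] := X - X ^ (q - 1)

theorem ev_Ph (p k : ℕ) : ev G q (Ph p k) = nm G p k := by
  simp only [Ph, nm, map_sum, ev_pow]

theorem ev_Vp [NeZero q] : ev G q (Vp q) = vp G q := by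
  rw [Vp, vp, map_sub, ev_X, ev_pow, Nat.cast_pred (Nat.pos_of_neZero q), ZMod.natCast_self,
    zero_sub]

theorem nm_ap (p k : ℕ) (Q : ZMod q → G) (i : ZMod q) :
    nm G p k Q i = ∑ j ∈ range p, Q (i - (j * p ^ k : ℕ)) := by
  simp only [nm, LinearMap.sum_apply, Finset.sum_apply, sh_ap]

theorem vp_ap (Q : ZMod q → G) (i : ZMod q) : vp G q Q i = Q (i - 1) - Q (i + 1) := by
  simp only [vp, LinearMap.sub_apply, Pi.sub_apply, sh_ap, sub_neg_eq_add]

/-- a map which commutes with the shift commutes with all polynomials in it -/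
theorem ev_map {G' : Type*} [AddCommGroup G'] (u : (ZMod q → G) →+ (ZMod q → G'))
    (hu : ∀ Q, u (sh G 1 Q) = sh G' 1 (u Q)) (f : ℤ[X]) (Q : ZMod q → G) :
    u (ev G q f Q) = ev G' q f (u Q) := by
  induction f using Polynomial.induction_on with
  | C a => simp [ev]
  | add f g hf hg => simp only [map_add, LinearMap.add_apply, hf, hg]
  | monomial n a h =>
    rw [pow_succ, ← mul_assoc, mul_comm _ X, ev_mul X, ev_mul X, ev_X, ev_X, hu, h]

/-- a subgroup which is stable under the shift is stable under all polynomials in it -/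
theorem ev_mem (B : AddSubgroup (ZMod q → G)) (hB : ∀ Q ∈ B, sh G 1 Q ∈ B) (f : ℤ[X])
    {Q : ZMod q → G} (h : Q ∈ B) : ev G q f Q ∈ B := by
  induction f using Polynomial.induction_on with
  | C a => simpa [ev] using B.zsmul_mem h a
  | add f g hf hg => simpa only [map_add, LinearMap.add_apply] using B.add_mem hf hg
  | monomial n a ih =>
    rw [pow_succ, ← mul_assoc, mul_comm _ X, ev_mul, ev_X]; exact hB _ ih

theorem ev_const (f : ℤ[X]) (c : G) : ev G q f (fun _ => c) = fun _ => f.eval 1 • c := by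
  induction f using Polynomial.induction_on with
  | C a => funext i; simp [ev]
  | add f g hf hg =>
    funext i; simp only [map_add, LinearMap.add_apply, hf, hg, eval_add, add_smul, Pi.add_apply]
  | monomial n a ih =>
    rw [pow_succ, ← mul_assoc, mul_comm _ X, ev_mul, ev_X, ih]
    funext i; simp [sh_ap]

theorem Ph_one (p k : ℕ) : (Ph p k).eval 1 = p := by simp [Ph, eval_finset_sum]

theorem nm_const (p k : ℕ) (c : G) : nm G p k (fun _ : ZMod q => c) = fun _ => p • c := by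
  rw [← ev_Ph, ev_const, Ph_one]; simp

theorem nm_ev {p k : ℕ} (f : ℤ[X]) {Q : ZMod q → G} (h : nm G p k Q = 0) :
    nm G p k (ev G q f Q) = 0 := by
  rw [← ev_Ph] at h ⊢
  rw [ev_comm, h, map_zero]

theorem const_of [NeZero q] {Q : ZMod q → G} (h : sh G 1 Q = Q) : Q = fun _ => Q 0 := by
  have e : ∀ n : ℕ, sh G (n : ZMod q) Q = Q := fun n => by
    induction n with
    | zero => rw [Nat.cast_zero, sh_zero]; rfl
    | succ n ih => rw [Nat.cast_succ, sh_add, Module.End.mul_apply, h, ih]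
  funext i
  have := congrFun (e i.val) i
  rw [sh_ap, ZMod.natCast_zmod_val, sub_self] at this
  exact this.symm

theorem mul_Ph (p k : ℕ) : (X ^ p ^ k - 1) * Ph p k = X ^ p ^ (k + 1) - 1 := by
  have := mul_geom_sum (X ^ p ^ k : ℤ[X]) p
  simp only [← pow_mul] at this
  rw [pow_succ, ← this, Ph]
  simp only [mul_comm]

/-- `σ - 1` is a multiple of `σ - σ⁻¹` for odd `q` -/
theorem ex_half (hq : Odd q) : ∃ f : ℤ[X], ev G q (Vp q * f) = ev G q (X - 1) := by
  obtain ⟨m, rfl⟩ := hq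
  refine ⟨X * ∑ i ∈ range (m + 1), (X ^ 2) ^ i, ?_⟩
  have e : Vp (2 * m + 1) * (X * ∑ i ∈ range (m + 1), (X ^ 2 : ℤ[X]) ^ i) =
      X * X ^ (2 * m + 1) - 1 - (X ^ (2 * m + 1) - 1) * ∑ i ∈ range (m + 1), (X ^ 2) ^ i := by
    have := mul_geom_sum (X ^ 2 : ℤ[X]) (m + 1)
    rw [Vp, Nat.add_sub_cancel]
    linear_combination this
  rw [e]
  simp only [map_sub, map_mul, ev_q, map_one, sub_self, zero_mul, sub_zero, mul_one]

theorem ex_two : ∃ f : ℤ[X], Vp q = (X - 1) * f := by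
  have : (X - C 1 : ℤ[X]) ∣ Vp q := dvd_iff_isRoot.2 (by simp [Vp])
  rwa [C_1] at this

section

variable {p k : ℕ}

/-- `σ - 1` maps the kernel of the norm onto itself -/
theorem pi_surj (hp : p ≠ 0) (hG : ∀ x : G, ∃ y, p • y = x) {Q : ZMod (p ^ (k + 1)) → G}
    (h : nm G p k Q = 0) : ∃ R, nm G p k R = 0 ∧ ev G _ (X - 1) R = Q := by
  haveI : NeZero (p ^ (k + 1)) := ⟨pow_ne_zero _ hp⟩
  have s0 : ∑ j ∈ range (p ^ (k + 1)), Q (-(j : ℕ)) = 0 := by
    have e : (∑ j ∈ range (p ^ (k + 1)), X ^ j : ℤ[X]) = (∑ j ∈ range (p ^ k), X ^ j) * Ph p k := by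
      refine mul_left_cancel₀ (a := X - 1) (by simpa using X_sub_C_ne_zero (1 : ℤ)) ?_
      rw [mul_geom_sum, ← mul_assoc, mul_geom_sum, mul_Ph]
    have := congrArg (fun f => ev G (p ^ (k + 1)) f Q 0) e
    simp only [ev_mul, ev_Ph, h, map_zero, map_sum, ev_pow, LinearMap.sum_apply, Finset.sum_apply,
      sh_ap, zero_sub, Pi.zero_apply] at this
    exact this
  obtain ⟨R, hR⟩ : ∃ R, ev G _ (X - 1) R = Q := by
    refine ⟨fun i => ∑ j ∈ range (-i).val, Q (-(j : ℕ)), funext fun i => ?_⟩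
    simp only [map_sub, ev_X, map_one, LinearMap.sub_apply, Pi.sub_apply, sh_ap,
      Module.End.one_apply]
    have b : (((-i).val + 1 : ℕ) : ZMod (p ^ (k + 1))) = -(i - 1) := by
      rw [Nat.cast_succ, ZMod.natCast_zmod_val]; ring
    have c : Q i = Q (-((-i).val : ℕ)) := by rw [ZMod.natCast_zmod_val, neg_neg]
    rw [← b, ZMod.val_natCast, c, sub_eq_iff_eq_add', ← sum_range_succ]
    rcases (Nat.succ_le_of_lt (ZMod.val_lt (-i))).eq_or_lt with e | e
    · rw [Nat.succ_eq_add_one] at e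
      rw [e, Nat.mod_self, s0, sum_range_zero]
    · rw [Nat.mod_eq_of_lt e]
  have e : sh G 1 (nm G p k R) = nm G p k R := by
    have := ev_comm (X - 1) (Ph p k) R
    rw [hR, ev_Ph, h, map_sub, ev_X, map_one] at this
    exact sub_eq_zero.1 this
  obtain ⟨d, hd⟩ := hG (nm G p k R 0)
  refine ⟨R - fun _ => d, ?_, ?_⟩
  · rw [map_sub, nm_const, hd, ← const_of e, sub_self]
  · rw [map_sub, hR, ev_const]; funext i; simp

theorem pi_ker [NeZero q] {Q : ZMod q → G} (h : nm G p k Q = 0) :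
    ev G q (X - 1) Q = 0 ↔ ∃ c : G, p • c = 0 ∧ Q = fun _ => c := by
  constructor
  · intro z
    rw [map_sub, ev_X, map_one] at z
    have e := const_of (Q := Q) (sub_eq_zero.1 z)
    refine ⟨Q 0, ?_, e⟩
    rw [e, nm_const] at h
    exact congrFun h 0
  · rintro ⟨c, -, rfl⟩
    rw [ev_const]; funext i; simp

/-- `A[ϖ] = G[p]` -/
theorem vp_ker (hq : Odd q) {Q : ZMod q → G} (h : nm G p k Q = 0) :
    vp G q Q = 0 ↔ ∃ c : G, p • c = 0 ∧ Q = fun _ => c := by
  haveI : NeZero q := ⟨hq.pos.ne'⟩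
  rw [← pi_ker h, ← ev_Vp]
  constructor
  · intro z
    obtain ⟨f, hf⟩ := ex_half (G := G) hq
    rw [← hf, mul_comm, ev_mul, z, map_zero]
  · intro z
    obtain ⟨f, hf⟩ := ex_two (q := q)
    rw [hf, mul_comm, ev_mul, z, map_zero]

theorem nm_vp [NeZero q] {Q : ZMod q → G} (h : nm G p k Q = 0) : nm G p k (vp G q Q) = 0 := by
  rw [← ev_Vp]; exact nm_ev _ h

/-- `ϖ` maps `A` onto `A` -/
theorem vp_surj (hp : Odd p) (hG : ∀ x : G, ∃ y, p • y = x) {Q : ZMod (p ^ (k + 1)) → G}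
    (h : nm G p k Q = 0) : ∃ R, nm G p k R = 0 ∧ vp G _ R = Q := by
  haveI : NeZero (p ^ (k + 1)) := ⟨pow_ne_zero _ hp.pos.ne'⟩
  obtain ⟨R, a, b⟩ := pi_surj hp.pos.ne' hG h
  obtain ⟨f, hf⟩ := ex_half (G := G) (hp.pow (n := k + 1))
  exact ⟨ev G _ f R, nm_ev _ a, by rw [← ev_Vp, ← ev_mul, hf, b]⟩

theorem vp_surj_pow (hp : Odd p) (hG : ∀ x : G, ∃ y, p • y = x) (m : ℕ)
    {Q : ZMod (p ^ (k + 1)) → G} (h : nm G p k Q = 0) :
    ∃ R, nm G p k R = 0 ∧ (vp G _ ^ m) R = Q := by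
  induction m with
  | zero => exact ⟨Q, h, rfl⟩
  | succ m ih =>
    obtain ⟨R, a, rfl⟩ := ih
    obtain ⟨R', a', rfl⟩ := vp_surj hp hG a
    exact ⟨R', a', by rw [pow_succ (vp G _), Module.End.mul_apply]⟩

/-- on `A`, `p` is a multiple of `σ - 1` -/
theorem p_pi (p k : ℕ) : ∃ f : ℤ[X], ∀ Q : ZMod q → G, nm G p k Q = 0 →
    p • Q = ev G q (X - 1) (ev G q f Q) := by
  have : (X - C 1 : ℤ[X]) ∣ C (p : ℤ) - Ph p k := dvd_iff_isRoot.2 (by simp [Ph_one])
  obtain ⟨f, hf⟩ := this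
  refine ⟨f, fun Q h => ?_⟩
  rw [← ev_mul, ← C_1, ← hf, map_sub, LinearMap.sub_apply, ev_Ph, h, sub_zero]
  simp [ev]

/-- on `A`, `p` is a multiple of `ϖ` -/
theorem p_vp (hq : Odd q) (p k : ℕ) : ∃ f : ℤ[X], ∀ Q : ZMod q → G, nm G p k Q = 0 →
    p • Q = vp G q (ev G q f Q) := by
  haveI : NeZero q := ⟨hq.pos.ne'⟩
  obtain ⟨f, hf⟩ := p_pi (G := G) (q := q) p k
  obtain ⟨g, hg⟩ := ex_half (G := G) hq
  exact ⟨g * f, fun Q h => by rw [hf Q h, ← hg, ← ev_Vp, ev_mul, ev_mul]⟩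

/-- `A[ϖ ^ m] ⊆ A[p ^ m]` -/
theorem tor_of (hq : Odd q) (m : ℕ) {Q : ZMod q → G} (h : nm G p k Q = 0)
    (z : (vp G q ^ m) Q = 0) : p ^ m • Q = 0 := by
  haveI : NeZero q := ⟨hq.pos.ne'⟩
  obtain ⟨f, hf⟩ := p_vp (G := G) hq p k
  have e : ∀ m : ℕ, p ^ m • Q = ev G q (f ^ m * Vp q ^ m) Q := fun m => by
    induction m with
    | zero => simp
    | succ m ih =>
      rw [pow_succ', mul_smul, ih, hf _ (nm_ev _ h), ← ev_Vp, ← ev_mul, ← ev_mul]
      congr 2; ring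
  rw [e, ev_mul, map_pow _ (Vp q), ev_Vp, z, map_zero]

theorem sub_pow_ex (hp : p.Prime) (a b : ℤ[X]) (n : ℕ) :
    ∃ g : ℤ[X], (a - b) ^ p ^ n = a ^ p ^ n - b ^ p ^ n + p * g := by
  obtain ⟨g, hg⟩ := exists_add_pow_prime_pow_eq hp (a - b) b n
  rw [sub_add_cancel] at hg
  exact ⟨-((a - b) * b * g), by linear_combination -hg⟩

/-- `(σ - 1) ^ q` is a multiple of `p` -/
theorem pi_q (hp : p.Prime) (n : ℕ) : ∃ g : ℤ[X], ∀ Q : ZMod (p ^ n) → G,
    (ev G _ (X - 1) ^ p ^ n) Q = p • ev G _ g Q := by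
  obtain ⟨g, hg⟩ := sub_pow_ex hp X 1 n
  refine ⟨g, fun Q => ?_⟩
  rw [← map_pow, hg, map_add, map_sub, ev_q, one_pow, map_one, sub_self, zero_add, ev_mul,
    map_natCast, Module.End.natCast_apply]

/-- `ϖ ^ q` is a multiple of `p` -/
theorem vp_q (hp : p.Prime) (n : ℕ) : ∃ g : ℤ[X], ∀ Q : ZMod (p ^ n) → G,
    (vp G _ ^ p ^ n) Q = p • ev G _ g Q := by
  haveI : NeZero (p ^ n) := ⟨pow_ne_zero _ hp.ne_zero⟩
  obtain ⟨g, hg⟩ := sub_pow_ex hp X (X ^ (p ^ n - 1)) n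
  refine ⟨g, fun Q => ?_⟩
  rw [← ev_Vp, ← map_pow, Vp, hg, map_add, map_sub, ev_q, ← pow_mul, mul_comm _ (p ^ n), pow_mul,
    map_pow _ (X ^ p ^ n), ev_q, one_pow, sub_self, zero_add, ev_mul, map_natCast,
    Module.End.natCast_apply]

theorem vp_qm (hp : p.Prime) (n m : ℕ) : ∃ g : ℤ[X], ∀ Q : ZMod (p ^ n) → G,
    (vp G _ ^ (p ^ n * m)) Q = p ^ m • ev G _ g Q := by
  obtain ⟨g, hg⟩ := vp_q (G := G) hp n
  refine ⟨g ^ m, fun Q => ?_⟩
  induction m with
  | zero => simp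
  | succ m ih =>
    rw [mul_add, mul_one, add_comm, pow_add, Module.End.mul_apply, ih, hg, map_nsmul, ← ev_mul,
      ← pow_succ', smul_smul, ← pow_succ']

/-- `(σ ^ (q / p) - 1) M ⊆ A` -/
theorem nm_prj (Q : ZMod (p ^ (k + 1)) → G) :
    nm G p k (sh G ((p ^ k : ℕ) : ZMod (p ^ (k + 1))) Q - Q) = 0 := by
  have e : sh G ((p ^ k : ℕ) : ZMod (p ^ (k + 1))) Q - Q = ev G _ (X ^ p ^ k - 1) Q := by
    rw [map_sub, ev_pow, map_one]; rfl
  rw [e, ← ev_Ph, ← ev_mul, mul_comm, mul_Ph, map_sub, ev_q, map_one, sub_self]; rfl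

theorem sh_nm (Q : ZMod (p ^ (k + 1)) → G) :
    sh G ((p ^ k : ℕ) : ZMod (p ^ (k + 1))) (nm G p k Q) = nm G p k Q := by
  have := nm_prj Q
  rw [map_sub, sub_eq_zero, ← ev_pow, ← ev_Ph, ev_comm] at this
  rw [← ev_pow, ← ev_Ph, this]

theorem nm_nm (Q : ZMod (p ^ (k + 1)) → G) : nm G p k (nm G p k Q) = p • nm G p k Q := by
  have e : ∀ j : ℕ, sh G ((j * p ^ k : ℕ) : ZMod (p ^ (k + 1))) (nm G p k Q) = nm G p k Q :=
    fun j => by
      induction j with
      | zero => rw [zero_mul, Nat.cast_zero, sh_zero]; rfl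
      | succ j ih => rw [add_mul, one_mul, Nat.cast_add, sh_add, Module.End.mul_apply, sh_nm, ih]
  generalize nm G p k Q = R at e
  rw [nm, LinearMap.sum_apply]
  simp only [e, sum_const, card_range]

/-- `(p - N) M ⊆ A` -/
theorem nm_prj' (Q : ZMod (p ^ (k + 1)) → G) : nm G p k (p • Q - nm G p k Q) = 0 := by
  rw [map_sub, nm_nm, map_nsmul, sub_self]

end

/-- the flip -/
def fl (G : Type*) [AddCommGroup G] (q : ℕ) : Module.End ℤ (ZMod q → G) where
  toFun Q i := Q (-i)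
  map_add' _ _ := rfl
  map_smul' _ _ := rfl

theorem fl_sh (j : ZMod q) (Q : ZMod q → G) : fl G q (sh G j Q) = sh G (-j) (fl G q Q) := by
  funext i
  show Q _ = Q _
  congr 1; ring

theorem fl_vp (Q : ZMod q → G) : fl G q (vp G q Q) = -vp G q (fl G q Q) := by
  simp only [vp, LinearMap.sub_apply, map_sub, fl_sh, neg_neg, neg_sub]

theorem fl_nm {p k : ℕ} {Q : ZMod (p ^ (k + 1)) → G} (hp : p ≠ 0) (h : nm G p k Q = 0) :
    nm G p k (fl G _ Q) = 0 := by
  funext i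
  have := congrFun h (-i + ((p - 1) * p ^ k : ℕ))
  rw [nm_ap, ← sum_range_reflect] at this
  rw [nm_ap]
  refine (sum_congr rfl fun j m => ?_).trans this
  show Q _ = Q _
  obtain ⟨t, rfl⟩ := Nat.exists_eq_add_of_lt (mem_range.1 m)
  rw [Nat.add_sub_cancel, Nat.add_sub_cancel_left]
  congr 1; push_cast; ring

/-- the adjoint of the shift -/
theorem adj_sh [NeZero q] {G' H : Type*} [AddCommGroup G'] [AddCommMonoid H] (w : G → G' → H)
    (j : ZMod q) (Q : ZMod q → G) (R : ZMod q → G') :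
    ∑ i, w (sh G j Q i) (R i) = ∑ i, w (Q i) (sh G' (-j) R i) :=
  Fintype.sum_equiv (Equiv.subRight j) _ _ fun i => by simp [sh_ap]

/-- the adjoint of `ϖ` is `-ϖ` -/
theorem adj_vp [NeZero q] {G' H : Type*} [AddCommGroup G'] [AddCommGroup H] (w : G →+ G' →+ H)
    (Q : ZMod q → G) (R : ZMod q → G') :
    ∑ i, w (vp G q Q i) (R i) = -∑ i, w (Q i) (vp G' q R i) := by
  have a := adj_sh (fun x y => w x y) 1 Q R
  have b := adj_sh (fun x y => w x y) (-1) Q R
  simp only [vp, LinearMap.sub_apply, Pi.sub_apply, map_sub, AddMonoidHom.sub_apply,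
    sum_sub_distrib, a, b, neg_neg, neg_sub]

theorem ev_all [NeZero q] (Q : ZMod q → G) :
    ev G q (∑ j ∈ range q, X ^ j) Q = fun _ => ∑ i, Q i := by
  funext i
  simp only [map_sum, ev_pow, LinearMap.sum_apply, Finset.sum_apply, sh_ap]
  rw [← Fintype.sum_equiv (Equiv.subLeft i) (fun j => Q (i - j)) Q fun _ => rfl]
  refine sum_bij' (fun j _ => (j : ZMod q)) (fun j _ => j.val) (fun _ _ => mem_univ _)
    (fun j _ => mem_range.2 (ZMod.val_lt j)) (fun j m => ZMod.val_cast_of_lt (mem_range.1 m))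
    (fun j _ => ZMod.natCast_zmod_val j) fun _ _ => rfl

theorem top_poly {p : ℕ} (hp : p.Prime) (n : ℕ) : ∃ g : ℤ[X],
    (X - 1 : ℤ[X]) ^ (p ^ n - 1) = ∑ j ∈ range (p ^ n), X ^ j + (p : ℤ[X]) * g := by
  obtain ⟨g, hg⟩ := sub_pow_ex hp X 1 n
  have n0 : (X - 1 : ℤ[X]) ≠ 0 := by simpa using X_sub_C_ne_zero (1 : ℤ)
  have q0 : 0 < p ^ n := pow_pos hp.pos n
  have d : (X - C 1 : ℤ[X]) ∣ g := dvd_iff_isRoot.2 (by
    have := congrArg (eval 1) hg
    simpa [q0.ne', hp.ne_zero] using this)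
  rw [C_1] at d
  obtain ⟨g', rfl⟩ := d
  refine ⟨g', mul_left_cancel₀ n0 ?_⟩
  rw [← pow_succ', Nat.sub_add_cancel q0, hg, mul_add, mul_geom_sum, one_pow]; ring

/-- on `p`-torsion `(σ - 1) ^ (q - 1)` is the full norm -/
theorem pi_top {p : ℕ} (hp : p.Prime) (n : ℕ) [NeZero (p ^ n)] {Q : ZMod (p ^ n) → G}
    (h : p • Q = 0) : (ev G _ (X - 1) ^ (p ^ n - 1)) Q = fun _ => ∑ i, Q i := by
  obtain ⟨g, hg⟩ := top_poly hp n
  rw [← map_pow, hg, map_add, LinearMap.add_apply, ev_all, mul_comm, ev_mul, map_natCast,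
    Module.End.natCast_apply, h, map_zero, add_zero]

/-- on `p`-torsion `ϖ ^ (q - 1)` is the full norm -/
theorem vp_top {p : ℕ} (hp : p.Prime) (o : Odd p) (n : ℕ) [NeZero (p ^ n)] {Q : ZMod (p ^ n) → G}
    (h : p • Q = 0) : (vp G _ ^ (p ^ n - 1)) Q = fun _ => ∑ i, Q i := by
  haveI := Fact.mk hp
  obtain ⟨f, hf⟩ := ex_two (q := p ^ n)
  have q0 : 0 < p ^ n := pow_pos hp.pos n
  have f1 : (p : ℤ) ∣ f.eval 1 - 2 ∨ n = 0 := by
    rcases n with _ | n
    · exact Or.inr rfl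
    have := congrArg (fun g => eval 1 (derivative g)) hf
    simp only [Vp, derivative_sub, derivative_X, derivative_X_pow, derivative_mul, derivative_one,
      eval_sub, eval_add, eval_mul, eval_one, eval_C, eval_pow, eval_X, one_pow, mul_one, sub_zero,
      one_mul, sub_self, zero_mul, add_zero] at this
    rw [← this, Nat.cast_pred q0]
    exact Or.inl ⟨-p ^ n, by push_cast; ring⟩
  rcases f1 with f1 | rfl
  · have s : p • ∑ i, Q i = 0 := by
      rw [smul_sum]; exact sum_eq_zero fun i _ => congrFun h i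
    have d : (p : ℤ) ∣ f.eval 1 ^ (p ^ n - 1) - 1 := by
      rw [← ZMod.intCast_zmod_eq_zero_iff_dvd] at f1 ⊢
      push_cast at f1 ⊢
      have t : (2 : ZMod p) ≠ 0 := fun e => by
        have := (ZMod.natCast_eq_zero_iff 2 p).1 (by exact_mod_cast e)
        rw [(Nat.prime_dvd_prime_iff_eq hp Nat.prime_two).1 this] at o
        exact absurd o (by decide)
      rw [sub_eq_zero.1 f1, sub_eq_zero]
      refine mul_left_cancel₀ t ?_
      rw [← pow_succ', Nat.sub_add_cancel q0, ZMod.pow_card_pow, mul_one]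
    obtain ⟨t, ht⟩ := d
    rw [← ev_Vp, ← map_pow, hf, mul_pow, mul_comm, ev_mul, map_pow _ (X - 1), pi_top hp n h,
      ev_const, eval_pow, sub_eq_iff_eq_add.1 ht]
    funext i
    rw [add_smul, one_smul, mul_comm, mul_smul, natCast_zsmul, s, smul_zero, zero_add]
  · funext i
    haveI : Subsingleton (ZMod (p ^ 0)) := by rw [pow_zero]; infer_instance
    rw [Fintype.sum_subsingleton _ i, show p ^ 0 - 1 = 0 by simp, pow_zero (vp G _)]
    rfl

end Vale.Agent.P014Y.Wp.Cy
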