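import Vale.Agent.P014Y.Wp.Chi0
import Vale.Agent.P014Y.Nv.All
import Vale.Agent.P014Y.F.Defs
import Vale.Agent.P004K.Hg.Bd
import Vale.Agent.P004F.Ra.Lv

/-! # P014Y, block Wp: a ring class character of order `pp ^ k` with a non torsion component -/

set_option autoImplicit false
set_option linter.all false

open NumberField Filter
open scoped Classical

noncomputable section

namespace Vale.Agent.P014Y.Wp

open Vale.Agent.P022 Vale.Agent.P004K Vale.Agent.P014U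
open P004M.TE (Pt ga ga_mul)
open F (Crv Fld Hg hq)

namespace Ch

variable {K : Type} [Field K] [NumberField K] {j : K →+* Qb}

theorem pg (q : Iq K) {p : ℕ} (hp : 0 < p) (n : ℕ) {g : GQ} (h : g ∈ Hc j p) :
    g ^ p ^ (n + 1) ∈ Hc j (p ^ (n + 1)) := by
  have c0 := pow_pos hp (n + 1)
  obtain ⟨I, co, ar⟩ := (x_rc2 K j q _ c0).2.1 g h.1 1 one_pos
  rw [mul_one] at co
  obtain ⟨-, -, -, -, r5, r6, -⟩ := x_rc2 K j q p hp
  have co' : Cop p I := ⟨co.1, top_le_iff.1 (co.2.ge.trans (sup_le_sup_left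
    (Ideal.span_singleton_le_span_singleton.2 (by simp [pow_succ])) _))⟩
  obtain ⟨k, a, rfl⟩ := (r5 I g co' (r6 (p ^ n) I g (pow_pos hp n) (pow_succ' p n ▸ co)
    (pow_succ' p n ▸ ar))).1 h
  obtain ⟨m, hm⟩ := Nat.exists_eq_succ_of_ne_zero c0.ne'
  obtain ⟨c1, a1⟩ := Nv.Pa.ar_pow x_rc2 q c0 co ar m
  rw [show m + 1 = p ^ (n + 1) from hm.symm] at c1 a1
  obtain ⟨d, hd⟩ := dvd_sub_pow_of_dvd_sub (p := p) (a := (k + p * a : 𝓞 K)) (b := k) (by simp) (n + 1)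
  refine ((x_rc2 K j q _ c0).2.2.2.2.1 _ _ c1 a1).2 ⟨k ^ p ^ (n + 1), p * d, ?_⟩
  rw [Ideal.span_singleton_pow, eq_add_of_sub_eq' hd]
  push_cast
  congr 2
  ring

theorem one (q : Iq K) {A B : ℤ} {p s m c : ℕ} (hp : p.Prime) (hc : 0 < c) {y : Pt A B}
    (fx : ∀ g ∈ Hc j c, ga g y = y) (h1 : ∀ g ∈ GK j, (g ^ p ^ s) ^ m ∈ Hc j c) {r : ℕ}
    {Q : Type} [Finite Q] (hr : Nat.card Q ≤ r) (r0 : 0 < r) (π : GQ → Q)
    (h2 : ∀ g ∈ GK j, ∀ g' ∈ GK j, π g = π g' → (g⁻¹ * g') ^ m ∈ Hc j c → g⁻¹ * g' ∈ Hc j c)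
    (nv : ∀ (T : Finset GQ) (ε : GQ → ℤ), T.card ≤ r → T.Nonempty →
      (∀ g ∈ T, g ∈ GK j ∧ g ^ m ∈ Hc j c ∧ ε g ≠ 0 ∧ |ε g| ≤ r) →
      (∀ g ∈ T, ∀ g' ∈ T, g⁻¹ * g' ∈ Hc j c → g = g') →
      ¬ IsOfFinAddOrder (∑ g ∈ T, ε g • ga g y)) :
    ∃ (k : ℕ) (χ : GQ → ZMod (p ^ k)), (∀ g ∈ GK j, ∀ h ∈ GK j, χ (g * h) = χ g + χ h) ∧
      (∀ g ∈ Hc j c, χ g = 0) ∧ (∀ i, ∃ g ∈ GK j, χ g = i) ∧
      ∀ C : Finset GQ, C.Nonempty → (∀ g ∈ C, g ∈ GK j ∧ χ g = 0) →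
        (∀ g ∈ C, ∀ g' ∈ C, g⁻¹ * g' ∈ Hc j c → g = g') → ¬ IsOfFinAddOrder (∑ g ∈ C, ga g y) ∧
        ∀ γ ∈ GK j, χ γ ≠ 0 → ¬ IsOfFinAddOrder (∑ g ∈ C, ga g y - ga γ (∑ g ∈ C, ga g y)) := by
  obtain ⟨-, op, nm, cm, -⟩ := x_rc1 K j q c hc
  haveI := (Hc j c).quotient_finite_of_isOpen op
  haveI : (Hc j c).FiniteIndex := Subgroup.finiteIndex_of_finite_quotient
  obtain ⟨G, _, _, μ, o, μm, μ1, oΓ, μo⟩ : ∃ (G : Type) (_ : CommGroup G) (_ : Finite G) (μ : GQ → G)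
      (o : G → GQ), (∀ g ∈ GK j, ∀ h ∈ GK j, μ (g * h) = μ g * μ h) ∧
      (∀ g ∈ GK j, μ g = 1 ↔ g ∈ Hc j c) ∧ (∀ x, o x ∈ GK j) ∧ ∀ x, μ (o x) = x := by
    let N := (Hc j c).subgroupOf (GK j)
    refine ⟨GK j ⧸ N, { (inferInstance : Group (GK j ⧸ N)) with mul_comm := fun x y => ?_ },
      inferInstance, fun g => if h : g ∈ GK j then ((⟨g, h⟩ : GK j) : GK j ⧸ N) else 1,
      fun x => (x.out : GK j), fun g a h b => ?_, fun g a => ?_, fun x => x.out.2, fun x => ?_⟩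
    · obtain ⟨x, rfl⟩ := QuotientGroup.mk_surjective x
      obtain ⟨y, rfl⟩ := QuotientGroup.mk_surjective y
      refine QuotientGroup.eq.2 (Subgroup.mem_subgroupOf.2 ?_)
      simpa [mul_assoc] using cm _ (inv_mem y.2) _ (inv_mem x.2)
    · simp only [dif_pos a, dif_pos b, dif_pos (mul_mem a b)]
      rfl
    · simp only [dif_pos a]
      exact QuotientGroup.eq_one_iff _
    · simp only [dif_pos x.out.2]
      exact x.out_eq'
  have μ0 : μ 1 = 1 := (μ1 1 (one_mem _)).2 (one_mem _)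
  have μi : ∀ g ∈ GK j, μ g⁻¹ = (μ g)⁻¹ := fun g a =>
    eq_inv_of_mul_eq_one_left (by rw [← μm _ (inv_mem a) _ a, inv_mul_cancel, μ0])
  have μp : ∀ g ∈ GK j, ∀ i : ℕ, μ (g ^ i) = μ g ^ i := fun g a i => by
    induction i with
    | zero => simpa using μ0
    | succ i ih => rw [pow_succ, μm _ (pow_mem a i) _ a, ih, pow_succ]
  have μe : ∀ g ∈ GK j, ∀ h ∈ GK j, μ g = μ h ↔ g⁻¹ * h ∈ Hc j c := fun g a h b => by
    rw [← μ1 _ (mul_mem (inv_mem a) b), μm _ (inv_mem a) _ b, μi g a, inv_mul_eq_one]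
  have fo : ∀ g ∈ GK j, ga (o (μ g)) y = ga g y := fun g a => by
    conv_rhs => rw [← mul_inv_cancel_left (o (μ g)) g, ga_mul, fx _ ((μe _ (oΓ _) g a).1 (μo _))]
  have oi : Function.Injective o := fun x x' e => by rw [← μo x, e, μo]
  haveI := Fintype.ofFinite G
  haveI := Fintype.ofFinite Q
  obtain ⟨k, χ, c1, c2⟩ := key (f := fun x => ga (o x) y) (ρ := fun x => ga (o x)) (K := s)
    (fun g x => by rw [← ga_mul, ← fo _ (mul_mem (oΓ g) (oΓ x)), μm _ (oΓ g) _ (oΓ x), μo, μo]) hp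
    (Finset.univ.filter (· ^ m = 1)) (fun b hb => Finset.eq_of_subset_of_card_le (fun x hx => by
      obtain ⟨z, hz, rfl⟩ := Finset.mem_image.1 hx
      simp only [Finset.mem_filter, Finset.mem_univ, true_and] at hb hz ⊢
      rw [mul_pow, hb, hz, one_mul]) (Finset.card_image_of_injective _ (mul_right_injective b)).ge)
    (fun g => Finset.mem_filter.2 ⟨Finset.mem_univ _, by
      rw [← μo g, ← μp _ (oΓ g), ← μp _ (pow_mem (oΓ g) _), μ1 _ (pow_mem (pow_mem (oΓ g) _) _)]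
      exact h1 _ (oΓ g)⟩) (by
      have := nv ((Finset.univ.filter (· ^ m = 1)).image o) (fun _ => 1) ?_
        (Finset.Nonempty.image ⟨1, by simp⟩ _) (fun g hg => ?_) fun g hg g' hg' e => ?_
      · rw [Finset.sum_image fun _ _ _ _ e => oi e] at this
        simpa only [one_smul] using this
      · rw [Finset.card_image_of_injective _ oi]
        refine (Finset.card_le_card_of_injOn (t := Finset.univ) (fun x => π (o x))
          (fun _ _ => Finset.mem_univ _) fun x hx x' hx' e => ?_).trans (by simpa using hr)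
        have a := mul_mem (inv_mem (oΓ x)) (oΓ x')
        rw [← μo x, ← μo x', μe _ (oΓ x) _ (oΓ x')]
        refine h2 _ (oΓ x) _ (oΓ x') e ?_
        rw [← μ1 _ (pow_mem a m), μp _ a, μm _ (inv_mem (oΓ x)) _ (oΓ x'), μi _ (oΓ x), μo, μo,
          mul_pow, inv_pow, (Finset.mem_filter.1 hx).2, (Finset.mem_filter.1 hx').2, inv_one, one_mul]
      · obtain ⟨x, hx, rfl⟩ := Finset.mem_image.1 hg
        refine ⟨oΓ x, ?_, one_ne_zero, by simpa [Nat.succ_le_iff] using r0⟩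
        rw [← μ1 _ (pow_mem (oΓ x) m), μp _ (oΓ x), μo, (Finset.mem_filter.1 hx).2]
      · obtain ⟨x, -, rfl⟩ := Finset.mem_image.1 hg
        obtain ⟨x', -, rfl⟩ := Finset.mem_image.1 hg'
        rw [← μe _ (oΓ x) _ (oΓ x'), μo, μo] at e
        rw [e])
  refine ⟨k, fun g => (χ (μ g)).toAdd, fun g a h b => by simp only [μm g a h b, map_mul, toAdd_mul],
    fun g a => by simp only [(μ1 g a.1).2 a, map_one, toAdd_one], fun i => ?_, fun C c0 h3 h4 => ?_⟩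
  · obtain ⟨x, e⟩ := c1 (Multiplicative.ofAdd i)
    exact ⟨o x, oΓ x, by simp only [μo, e, toAdd_ofAdd]⟩
  have inj : Set.InjOn μ C := fun g a g' b e => h4 g a g' b ((μe _ (h3 g a).1 _ (h3 g' b).1).1 e)
  obtain ⟨d1, d2⟩ := c2 (C.image μ) (c0.image _) fun x hx => by
    obtain ⟨g, a, rfl⟩ := Finset.mem_image.1 hx
    exact (h3 g a).2
  have s1 : ∑ x ∈ C.image μ, ga (o x) y = ∑ g ∈ C, ga g y := by
    rw [Finset.sum_image inj]
    exact Finset.sum_congr rfl fun g a => fo g (h3 g a).1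
  refine ⟨s1 ▸ d1, fun γ a ne => ?_⟩
  have s2 : ∑ x ∈ C.image μ, ga (o (μ γ * x)) y = ga γ (∑ g ∈ C, ga g y) := by
    rw [Finset.sum_image inj, map_sum]
    exact Finset.sum_congr rfl fun g b => by
      rw [← μm _ a _ (h3 g b).1, fo _ (mul_mem a (h3 g b).1), ga_mul]
  have := d2 (μ γ) ne
  rwa [s1, s2] at this

end Ch

variable [Pp]

/-- **a character with a non torsion primitive component** -/
def CHI : Prop := ∀ (e : Crv) (b : Fld e) (Y : ℕ → Pt e.A e.B),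
  (∀ n, Hg e b.j b.I (pp ^ n) (Y n)) → ∀ᶠ n in atTop, ∃ (k : ℕ) (χ : GQ → ZMod (pp ^ k)),
    (∀ g h, χ (g * h) = χ g + if g ∈ b.Γ then χ h else -χ h) ∧ χ b.c = 0 ∧
    (∀ g ∈ Hc b.j (pp ^ n), χ g = 0) ∧ (∀ i, ∃ g ∈ b.Γ, χ g = i) ∧
    ∀ T, b.Tv (pp ^ n) T → ¬ IsOfFinAddOrder (∑ g ∈ T with χ g = 0, ga g (Y n)) ∧
      ∀ γ ∈ b.Γ, χ γ ≠ 0 → ¬ IsOfFinAddOrder (∑ g ∈ T with χ g = 0, ga g (Y n) -
        ga γ (∑ g ∈ T with χ g = 0, ga g (Y n)))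

theorem chi : CHI := fun e b Y hY => by
  obtain ⟨ω, B⟩ := Hg.bs Rc.iq b.iq b.j
  have B := B.eta b.adm.sq b.th b.im b.eta
  obtain ⟨u, hu⟩ : (4 : ℤ) ∣ b.β ^ 2 + b.δ' := Dvd.dvd.trans ⟨4 * e.N, by ring⟩ b.dat.rt
  have sq : b.η ^ 2 = (-b.β : ℤ) * b.η - u := mul_left_cancel₀ (by norm_num : (4 : 𝓞 b.K) ≠ 0) (by
    have : (b.β : 𝓞 b.K) ^ 2 + b.δ' = 4 * u := by exact_mod_cast congrArg (Int.cast : ℤ → 𝓞 b.K) hu
    push_cast
    linear_combination b.th - this + (2 * b.η + b.θ + b.β) * b.eta)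
  have odd : Odd b.δ' := Nat.odd_iff.2 (by have := b.adm.m8; omega)
  have co : e.N.Coprime b.δ' := Nat.coprime_of_dvd fun l hl d d' => by
    by_cases h2 : l = 2
    · exact (Nat.not_even_iff_odd.2 odd) (even_iff_two_dvd.2 (h2 ▸ d'))
    · exact zero_ne_one ((jacobiSym.eq_zero_iff.2 ⟨hl.ne_zero, fun k => hl.one_lt.ne' (Nat.dvd_one.1
        (k ▸ Nat.dvd_gcd (by simpa using d') (by simp)))⟩).symm.trans (b.dat.spl l hl h2 d))
  obtain ⟨-, op, nm, -⟩ := x_rc1 b.K b.j b.iq pp pp_pos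
  haveI := (Hc b.j pp).quotient_finite_of_isOpen op
  obtain ⟨s, m, hm, hi⟩ := Nat.exists_eq_pow_mul_and_not_dvd (p := pp)
    (Hc b.j pp).index_ne_zero_of_finite pp_prime.ne_one
  have mp : m.Coprime pp := (pp_prime.coprime_iff_not_dvd.2 hm).symm
  obtain ⟨N₀, hN⟩ := eventually_atTop.1 (Nv.nv_all b.K b.j b.iq b.upm b.η _ u b.δ' B sq
    (by linear_combination -hu) odd _ _ _ _ _ _ _ _ _ _ b.I e.rn e.par b.ch.lev.cn co pp m
    (Hc b.j pp).index Y pp_prime mp hY)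
  refine eventually_atTop.2 ⟨N₀ + 1, fun n hn => ?_⟩
  obtain ⟨n, rfl⟩ := Nat.exists_eq_succ_of_ne_zero (show n ≠ 0 by omega)
  have c0 := pow_pos pp_pos (n + 1)
  obtain ⟨k, χ, a1, a2, a3, a4⟩ := Ch.one b.iq (s := s + (n + 1)) (m := m) pp_prime c0
    (fun g => Nv.Gl.fix jh x_rc1 b.iq B e.rn.pos c0 b.ch.lev.cn e.par.lat e.par.g2_eq e.par.g3_eq
      (hY _)) (fun g _ => by
      rw [← pow_mul, pow_add pp s, mul_right_comm, ← hi, pow_mul]
      exact Ch.pg b.iq pp_pos n (Subgroup.pow_index_mem _ g)) (Q := GQ ⧸ Hc b.j pp) le_rfl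
    (Nat.pos_of_ne_zero (Hc b.j pp).index_ne_zero_of_finite) QuotientGroup.mk
    (fun g _ g' _ e1 e2 => by
      obtain ⟨x, y, xy⟩ := Nat.isCoprime_iff_coprime.2 (mp.pow_right (n + 1))
      have := mul_mem (zpow_mem e2 x) (zpow_mem (Ch.pg b.iq pp_pos n (QuotientGroup.eq.1 e1)) y)
      rwa [← zpow_natCast, ← zpow_natCast, ← zpow_mul, ← zpow_mul, ← zpow_add, mul_comm _ x,
        mul_comm _ y, xy, zpow_one] at this) (hN _ (by omega))
  have co : b.c ∉ b.Γ := P004F.Ra.conj_out b.iq b.cc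
  have cc : b.c * b.c = 1 := P004M.TE.conj_sq (hq e.par.disc) b.cc
  have mm : ∀ {g h}, g ∉ b.Γ → h ∉ b.Γ → g * h ∈ b.Γ := H20.mul_mem' b.iq.two
  have z0 : χ 1 = 0 := a2 1 (one_mem _)
  have cj : ∀ h ∈ b.Γ, b.c * h * b.c ∈ b.Γ ∧ χ (b.c * h * b.c) = -χ h := fun h a => by
    have m := mm (mt (mul_mem_cancel_right a).1 co) co
    have := a2 _ ((x_rc1 b.K b.j b.iq _ c0).2.2.2.2.1 _ co h a)
    rw [inv_eq_of_mul_eq_one_right cc, a1 _ m _ a] at this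
    exact ⟨m, eq_neg_of_add_eq_zero_left this⟩
  refine ⟨k, fun g => if g ∈ b.Γ then χ g else χ (g * b.c), fun g h => ?_, ?_, fun g a => ?_,
    fun i => (a3 i).imp fun g a => ⟨a.1, (if_pos a.1).trans a.2⟩, fun T hT => ?_⟩
  · by_cases x : g ∈ b.Γ <;> by_cases y : h ∈ b.Γ
    · simp only [if_pos x, if_pos y, if_pos (mul_mem x y), a1 g x h y]
    · simp only [if_pos x, if_neg y, if_neg (mt (mul_mem_cancel_left x).1 y), mul_assoc,
        a1 g x _ (mm y co)]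
    · simp only [if_neg x, if_pos y, if_neg (mt (mul_mem_cancel_right y).1 x)]
      rw [← (cj h y).2, ← a1 _ (mm x co) _ (cj h y).1]
      simp only [mul_assoc, ← mul_assoc b.c b.c, cc, one_mul]
    · simp only [if_neg x, if_neg y, if_pos (mm x y)]
      rw [← (cj _ (mm y co)).2, ← a1 _ (mm x co) _ (cj _ (mm y co)).1]
      simp only [mul_assoc, ← mul_assoc b.c b.c, cc, one_mul, mul_one]
  · exact (if_neg co).trans (cc ▸ z0)
  · exact (if_pos a.1).trans (a2 g a)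
  · have f : T.filter (fun g => (if g ∈ b.Γ then χ g else χ (g * b.c)) = 0) =
        T.filter fun g => χ g = 0 := Finset.filter_congr fun g a => by rw [if_pos (hT.1 g a)]
    obtain ⟨t, ⟨t1, t2⟩, -⟩ := hT.2 1 (one_mem _)
    obtain ⟨d1, d2⟩ := a4 (T.filter fun g => χ g = 0) ⟨t, Finset.mem_filter.2 ⟨t1, a2 t (by simpa using t2)⟩⟩
      (fun g a => ⟨hT.1 g (Finset.mem_filter.1 a).1, (Finset.mem_filter.1 a).2⟩) fun g a g' a' k =>
        (hT.2 g (hT.1 g (Finset.mem_filter.1 a).1)).unique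
          ⟨(Finset.mem_filter.1 a).1, by simp⟩ ⟨(Finset.mem_filter.1 a').1, k⟩
    rw [f]
    exact ⟨d1, fun γ a ne => d2 γ a fun k => ne ((if_pos a).trans k)⟩

end Vale.Agent.P014Y.Wp
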