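import Vale.Agent.P014Y.Wp.Iv
import Vale.Agent.P014U.Ki.All

/-! # P014Y, wild parity: isotropy of the Kummer images of families of points at every place -/

set_option autoImplicit false
set_option linter.all false

open NumberField Polynomial WeierstrassCurve.Affine
open scoped Classical

noncomputable section

namespace Vale.Agent.P014Y.Wp

open Vale.Agent.P022 P004K P004H.H666 P179W P014U
open P004M.TE (Pt ga Cv xp_eq xp_ga ga_mul ga_one ga_some)
open P004F (hq)
open P004F.Qx (zf)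
open P004F.Qx.Fg
open Vale.Agent.P022D.W (dec)
open Vale.Agent.P022E.GW (Ov)
open Vale.Agent.P014U.X4S.Ga (K O Z2 B2 d2)
open Vale.Agent.P014U.X4S.Aq (cy)
open Vale.Agent.P014U.X4F.Rc (mq mq_eq mq_zero b2_add b2_neg b2_congr b2_zero)
open P014U.Ki (Pr cu Fx wp tor tor_map fx_up)
open P014Y.F.Qx (vx zf0 dvm vmul)
open Iv

variable [Pp]

section abs

variable {M : Type} [AddCommGroup M] {ρ : GQ → M →+ M} {w : ℕ → M → M → K} {D : Subgroup GQ} {n : ℕ}
  {x y : M}

theorem cop_mem (S : AddSubgroup M) {u : ℕ} (hu : ¬ pp ∣ u) (h : u • x ∈ S) (k : pp ^ n • x ∈ S) :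
    x ∈ S := by
  obtain ⟨a, b, e⟩ := Nat.isCoprime_iff_coprime.2
    (Nat.Coprime.pow_left n ((Nat.Prime.coprime_iff_not_dvd pp_prime).2 hu))
  rw [← one_smul ℤ x, ← e, add_smul, mul_smul, mul_smul, natCast_zsmul, natCast_zsmul]
  exact add_mem (S.zsmul_mem k a) (S.zsmul_mem h b)

/-- polarisation -/
theorem pol (H : Pr ρ w) (a : pp ^ n • x ∈ Fx D ρ) (b : pp ^ n • y ∈ Fx D ρ)
    (h1 : B2 cy D (cu ρ w n x x)) (h2 : B2 cy D (cu ρ w n y y))
    (h3 : B2 cy D (cu ρ w n (x + y) (x + y))) : B2 cy D (cu ρ w n x y) := by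
  have s : B2 cy D fun g h => cu ρ w n y x g h - cu ρ w n x y g h := by
    refine ⟨fun g => w n (ρ g x - x) (ρ g y - y),
      (H.cont (fun s t => w n (s - x) (t - y)) x y).continuousOn, fun g hg h hh => mq_eq.1 ?_⟩
    simp only [d2, cu, map_add mq, map_sub mq]
    rw [H.act g (tor a hh) (tor b hh), H.co g h x, H.co g h y,
      H.addl (tor a hg) (tor_map (tor a hh) g) (Ki.tor_add (tor b hg) (tor_map (tor b hh) g)),
      H.addr (tor a hg) (tor b hg) (tor_map (tor b hh) g),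
      H.addr (tor_map (tor a hh) g) (tor b hg) (tor_map (tor b hh) g),
      H.skew (tor b hg) (tor_map (tor a hh) g)]
    abel
  have t : B2 cy D (cu ρ w n (2 • x) y) := by
    refine b2_congr (b2_add (b2_add h3 (b2_neg (b2_add h1 h2))) (b2_neg s)) fun g hg h hh => mq_eq.1 ?_
    simp only [cu, map_add mq, map_sub mq, map_neg mq, two_nsmul, map_add (ρ g), map_add (ρ h),
      add_sub_add_comm]
    rw [H.addl (tor a hg) (tor a hg) (tor_map (tor b hh) g),
      H.addl (tor a hg) (tor b hg) (Ki.tor_add (tor_map (tor a hh) g) (tor_map (tor b hh) g)),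
      H.addr (tor a hg) (tor_map (tor a hh) g) (tor_map (tor b hh) g),
      H.addr (tor b hg) (tor_map (tor a hh) g) (tor_map (tor b hh) g)]
    abel
  exact (cop_mem (H.Lf b) not_dvd_two ⟨by rw [smul_comm]; exact nsmul_mem a 2, t⟩ (H.fx_Lf b a)).2

/-- **isotropy** from the diagonal values on a subgroup which contains a multiple of every element -/
theorem isoq (H : Pr ρ w) (S : AddSubgroup M) (le : S ≤ Fx D ρ)
    (h : ∀ x ∈ Fx D ρ, ∃ N : ℕ, N ≠ 0 ∧ N • x ∈ S)
    (h0 : ∀ m x, pp ^ m • x ∈ S → B2 cy D (cu ρ w m x x))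
    (a : pp ^ n • x ∈ Fx D ρ) (b : pp ^ n • y ∈ Fx D ρ) : B2 cy D (cu ρ w n x y) := by
  obtain ⟨N, N0, h1⟩ := h _ a
  obtain ⟨N', N1, h2⟩ := h _ b
  obtain ⟨c, u, hu, e⟩ := Nat.exists_eq_pow_mul_and_not_dvd (mul_ne_zero N0 N1) pp one_lt.ne'
  obtain ⟨x, rfl⟩ := H.dvp c x
  obtain ⟨y, rfl⟩ := H.dvp c y
  have e1 : ∀ z : M, pp ^ (n + c + c) • u • z = (N * N') • pp ^ n • pp ^ c • z := fun z => by
    simp only [← mul_smul, e]
    congr 1
    ring
  have e2 : ∀ z : M, pp ^ (n + c) • z = pp ^ n • pp ^ c • z := fun z => by rw [pow_add, mul_smul]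
  have s1 : pp ^ (n + c + c) • u • x ∈ S := by
    rw [e1, mul_comm, mul_smul]; exact nsmul_mem h1 _
  have s2 : pp ^ (n + c + c) • u • y ∈ S := by
    rw [e1, mul_smul]; exact nsmul_mem h2 _
  have a' : pp ^ (n + c + c) • x ∈ Fx D ρ := fx_up (e2 x ▸ a) c
  have b' : pp ^ (n + c + c) • y ∈ Fx D ρ := fx_up (e2 y ▸ b) c
  have k := pol H (le s1) (le s2) (h0 _ _ s1) (h0 _ _ s2) (h0 _ _ (by rw [smul_add]; exact add_mem s1 s2))
  have k1 := (cop_mem (H.Lf (le s2)) hu ⟨le s1, k⟩ (H.fx_Lf _ a')).2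
  have k2 := (cop_mem (H.Rt a') hu ⟨le s2, k1⟩ (H.fx_Rt _ b')).2
  exact H.lev_r c a (e2 y ▸ b) (H.lev_l c a' (e2 y ▸ b) k2)

end abs

variable {X : Type} [Fintype X] [MulAction GQ X] {A B : ℤ}

/-- the stabilisers are open -/
def Os (X : Type) [MulAction GQ X] : Prop := ∀ i : X, IsLocallyConstant fun g : GQ => g⁻¹ • i

/-- a cocycle of signs -/
structure Sg (ε : GQ → X → ℤ) : Prop where
  mul : ∀ g h i, ε (g * h) i = ε g i * ε h (g⁻¹ • i)
  pm : ∀ g i, ε g i = 1 ∨ ε g i = -1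
  lc : ∀ i, IsLocallyConstant fun g => ε g i

/-- the twisted action on families -/
def ra (ε : GQ → X → ℤ) (g : GQ) : (X → Pt A B) →+ (X → Pt A B) where
  toFun Q i := ε g i • ga g (Q (g⁻¹ • i))
  map_zero' := funext fun i => by rw [Pi.zero_apply, map_zero, zsmul_zero, Pi.zero_apply]
  map_add' Q R := funext fun i => by rw [Pi.add_apply, map_add, zsmul_add, Pi.add_apply]

/-- the action on families -/
def rm (g : GQ) : (X → Pt A B) →+ (X → Pt A B) where
  toFun Q i := ga g (Q (g⁻¹ • i))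
  map_zero' := funext fun i => by simp
  map_add' Q R := funext fun i => by simp

theorem ra_apply (ε : GQ → X → ℤ) (g : GQ) (Q : X → Pt A B) (i : X) :
    ra ε g Q i = ε g i • ga g (Q (g⁻¹ • i)) := rfl

theorem rm_apply (g : GQ) (Q : X → Pt A B) (i : X) : rm g Q i = ga g (Q (g⁻¹ • i)) := rfl

theorem ra_of {ε : GQ → X → ℤ} {g : GQ} (h : ∀ i, ε g i = 1) (Q : X → Pt A B) : ra ε g Q = rm g Q :=
  funext fun i => by rw [ra_apply, h, one_smul, rm_apply]

theorem ra_one : (ra (fun _ _ => 1) : GQ → (X → Pt A B) →+ _) = rm :=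
  funext fun _ => AddMonoidHom.ext (ra_of fun _ => rfl)

theorem sg_one : Sg (X := X) fun _ _ => 1 :=
  ⟨fun _ _ _ => rfl, fun _ _ => .inl rfl, fun _ => IsLocallyConstant.const _⟩

variable (hD : 4 * A ^ 3 + 27 * B ^ 2 ≠ 0)

/-- the sum of the pairings -/
def ws (n : ℕ) (x y : X → Pt A B) : K := ∑ i, wp (hq hD) n (x i) (y i)

theorem lc_pi {Y : Type} {f : GQ → X → Y} (h : ∀ i, IsLocallyConstant fun g => f g i) :
    IsLocallyConstant f := (IsLocallyConstant.iff_eventually_eq _).2 fun g =>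
  (Filter.eventually_all.2 fun i => (h i).eventually_eq g).mono fun _ k => funext k

theorem pr_ra (hX : Os X) {ε : GQ → X → ℤ} (S : Sg ε) : Pr (ra ε) (ws (X := X) hD) where
  mul g h x := funext fun i => by
    simp only [ra_apply, S.mul, map_zsmul, ga_mul, smul_smul, mul_inv_rev]
  lc x := lc_pi fun i => (((S.lc i).prodMk (hX i)).prodMk
    (lc_pi fun j => (Ki.pr (hq hD)).lc (x j))).comp fun z => z.1.1 • z.2 z.1.2
  dv y := by
    choose z hz using fun i => (Ki.pr (hq hD)).dv (y i)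
    exact ⟨z, funext hz⟩
  addl a a' b := by
    simp only [ws, map_sum, ← Finset.sum_add_distrib]
    exact Finset.sum_congr rfl fun i _ =>
      (Ki.pr (hq hD)).addl (congrFun a i) (congrFun a' i) (congrFun b i)
  skew a b := by
    simp only [ws, map_sum, ← Finset.sum_neg_distrib]
    exact Finset.sum_congr rfl fun i _ => (Ki.pr (hq hD)).skew (congrFun a i) (congrFun b i)
  act {n x y} g a b := by
    simp only [ws, map_sum, Finset.mul_sum]
    rw [← Equiv.sum_comp (MulAction.toPerm g⁻¹)]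
    refine Finset.sum_congr rfl fun i _ => ?_
    have a' := congrFun a (g⁻¹ • i)
    have b' := congrFun b (g⁻¹ • i)
    rw [MulAction.toPerm_apply, (Ki.pr (hq hD)).act g a' b', ra_apply, ra_apply]
    rcases S.pm g i with e | e <;> rw [e]
    · rw [one_smul, one_smul]
    · rw [neg_one_smul, neg_one_smul, (Ki.pr (hq hD)).negl (tor_map a' g) (Ki.tor_neg (tor_map b' g)),
        (Ki.pr (hq hD)).negr (tor_map a' g) (tor_map b' g), neg_neg]
  lev a b := by
    simp only [ws, map_sum]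
    exact Finset.sum_congr rfl fun i _ => (Ki.pr (hq hD)).lev (congrFun a i) (congrFun b i)

theorem pr_rm (hX : Os X) : Pr (rm : GQ → (X → Pt A B) →+ _) (ws hD) :=
  ra_one (X := X) (A := A) (B := B) ▸ pr_ra hD hX sg_one

variable {l : ℕ} {P : Ideal (𝓞 Qb)} {V : ValuationSubring Qb} {ε : GQ → X → ℤ}

omit [Pp] in
theorem kv (hO : Vr P V) {g : GQ} (hg : g ∈ dec P) {y : Pt A B} (h : KerV V.valuation y) :
    KerV V.valuation (ga g y) := (hO.k1 _).1 (Dc.k1 hg ((hO.k1 _).2 h))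

include hD

/-- equivariant division in the formal group -/
theorem ud (hO : Vr P V) (pm : ∀ g i, ε g i = 1 ∨ ε g i = -1) {m : ℕ} {y : X → Pt A B}
    (a : y ∈ Fx (dec P) (ra ε)) (k : ∀ i, KerV V.valuation (y i))
    (hm : ∀ i, V.valuation (zf (y i)) ^ 2 < V.valuation m ^ 3) :
    ∃ R ∈ Fx (dec P) (ra ε), m • R = y := by
  choose R r1 r2 r3 using fun i => dvm hD (k i) (hm i)
  refine ⟨R, fun g hg => funext fun i => ?_, funext r2⟩
  have c1 := kv hO hg (r1 (g⁻¹ • i))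
  have c2 : V.valuation (zf (ga g (R (g⁻¹ • i)))) ^ 2 < V.valuation m := by
    have := vlt hO hg (x := zf (R (g⁻¹ • i)) ^ 2) (y := m) (by rw [map_pow]; exact r3 _)
    rwa [map_pow, map_pow, map_natCast, ← zf_ga] at this
  have c3 : KerV V.valuation (ra ε g R i) ∧ V.valuation (zf (ra ε g R i)) ^ 2 < V.valuation m := by
    rw [ra_apply]
    rcases pm g i with e | e <;> rw [e]
    · rw [one_smul]; exact ⟨c1, c2⟩
    · rw [neg_one_smul, zf_neg, Valuation.map_neg]; exact ⟨kerV_neg.2 c1, c2⟩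
  have c4 := kerV_neg.2 (r1 i)
  refine sub_eq_zero.1 (F.Qx.tor (m := m) (sub_eq_add_neg (ra ε g R i) _ ▸ kerV_add cf c3.1 c4) ?_ ?_)
  · rw [sub_eq_add_neg]
    refine (pow_le_pow_left₀ zero_le' (add_le c3.1 c4 (le_max_left _ _) (le_max_right _ _)).1 2).trans_lt ?_
    rw [zf_neg, Valuation.map_neg]
    rcases max_choice (V.valuation (zf (ra ε g R i))) (V.valuation (zf (R i))) with e | e <;> rw [e]
    exacts [c3.2, r3 i]
  · rw [nsmul_sub, r2, ← congrFun (a g hg) i, ← funext r2]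
    exact sub_eq_zero.2 (congrFun (map_nsmul (ra ε g) m R) i).symm

omit [Pp] in
theorem mkx (o : Ov l P) (hO : Vr P V) (x : X → Pt A B) :
    ∃ N : ℕ, N ≠ 0 ∧ ∀ i, KerV V.valuation ((N • x) i) := by
  choose N h0 h1 using fun i => mk1 hD o hO (x i)
  refine ⟨∏ i, N i, Finset.prod_ne_zero_iff.2 fun i _ => h0 i, fun i => ?_⟩
  rw [Pi.smul_apply, ← Finset.prod_erase_mul _ _ (Finset.mem_univ i), mul_smul]
  exact (F.Qx.nsm (h1 i) _).1

/-- at another prime a multiple of every local family is infinitely divisible -/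
theorem dvo (o : Ov l P) (h2 : l ≠ pp) (pm : ∀ g i, ε g i = 1 ∨ ε g i = -1) (x : X → Pt A B)
    (a : x ∈ Fx (dec P) (ra ε)) :
    ∃ N : ℕ, N ≠ 0 ∧ ∀ m : ℕ, ∃ R ∈ Fx (dec P) (ra ε), N • x = pp ^ m • R := by
  obtain ⟨V, hO⟩ := ex_O o.2.1 (ne_bot o.1.ne_zero o.2.2)
  obtain ⟨N, N0, k⟩ := mkx hD o hO x
  refine ⟨N, N0, fun m => ?_⟩
  have u : V.valuation (pp ^ m : ℕ) = 1 := by
    have := v_one o hO (m := pp) fun d =>
      h2 ((Nat.prime_dvd_prime_iff_eq o.1 pp_prime).1 (Int.natCast_dvd_natCast.1 d))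
    rw [Int.cast_natCast] at this
    rw [Nat.cast_pow, map_pow, this, one_pow]
  obtain ⟨R, r, e⟩ := ud hD hO pm (m := pp ^ m) (nsmul_mem a N) k fun i => by
    rw [u, one_pow]
    exact pow_lt_one₀ zero_le' (ker (k i)).1 two_ne_zero
  exact ⟨R, r, e.symm⟩

omit hD [Pp] [MulAction GQ X] in
theorem ex_th0 {k L : Type} [Field k] [CharZero k] [Field L] [Algebra k L] [IsGalois k L]
    [MulAction (L ≃ₐ[k] L) X] (hX : ∀ᶠ g : L ≃ₐ[k] L in nhds 1, ∀ i : X, g⁻¹ • i = i) :
    ∃ θ : X → L, Function.Injective θ ∧ ∀ (g : L ≃ₐ[k] L) i, g (θ i) = θ (g • i) := by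
  obtain ⟨F, fF, nF, hF⟩ := (krullTopology_mem_nhds_one_iff_of_normal k L _).1 hX
  have : IsGalois k F := IsGalois.mk
  choose s hs using AlgEquiv.restrictNormalHom_surjective (F := k) (K₁ := F) L
  obtain ⟨c, hc⟩ := exists_injective_nat X
  let b := IsGalois.normalBasis k F
  have hb : ∀ σ τ, σ (b τ) = b (σ * τ) := fun σ τ => by
    rw [IsGalois.normalBasis_apply τ, IsGalois.normalBasis_apply (σ * τ), AlgEquiv.mul_apply]
  refine ⟨fun i => (∑ σ, (c ((s σ)⁻¹ • i) : k) • b σ : F), fun i j e => ?_, fun g i => ?_⟩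
  · have := congrArg (fun z => b.repr z 1) (Subtype.val_injective e)
    simp only [b.repr_sum_self, Nat.cast_inj] at this
    exact MulAction.injective _ (hc this)
  rw [← AlgEquiv.restrictNormalHom_apply F g, map_sum]
  congr 1
  refine Fintype.sum_equiv (Equiv.mulLeft (AlgEquiv.restrictNormalHom F g)) _ _ fun σ => ?_
  have m : (s σ)⁻¹ * g⁻¹ * s (AlgEquiv.restrictNormalHom F g * σ) ∈ F.fixingSubgroup := by
    rw [← IntermediateField.restrictNormalHom_ker, MonoidHom.mem_ker]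
    simp [hs]
  have := hF m ((s σ)⁻¹ • i)
  simp only [mul_inv_rev, inv_inv, smul_smul, mul_assoc, mul_inv_cancel, mul_one] at this
  rw [Equiv.coe_mulLeft, smul_smul, this, ← hb]
  exact (AlgEquiv.restrictNormalHom F g).toLinearMap.map_smul _ _

omit hD [Pp] in
/-- an equivariant injection into the algebraic integers -/
theorem ex_th (hX : Os X) : ∃ θ : X → Qb, Function.Injective θ ∧ (∀ (g : GQ) i, g (θ i) = θ (g • i)) ∧
    ∀ i, IsIntegral ℤ (θ i) := by
  obtain ⟨θ, t1, t2⟩ := ex_th0 (k := ℚ) (L := Qb) (X := X) (by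
    simpa using Filter.eventually_all.2 fun i => (hX i).eventually_eq 1)
  have : Algebra.IsAlgebraic ℤ Qb := ⟨fun x => (IsFractionRing.isAlgebraic_iff ℤ ℚ Qb).2
    (Algebra.IsAlgebraic.isAlgebraic x)⟩
  obtain ⟨y, y0, hy⟩ := Algebra.IsAlgebraic.exists_integral_multiples ℤ (Finset.univ.image θ)
  refine ⟨fun i => y • θ i, fun i j e => t1 (smul_right_injective Qb y0 e), fun g i => by
    rw [map_zsmul, t2], fun i => hy _ (Finset.mem_image_of_mem _ (Finset.mem_univ i))⟩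

omit hD [Pp] in
/-- **global families are dense** -/
theorem dens (hX : Os X) (o : Ov l P) (hO : Vr P V) {a : X → Qb}
    (ha : ∀ g ∈ dec P, ∀ i, g (a i) = a (g • i)) (j : ℕ) : ∃ a' : X → Qb,
    (∀ (g : GQ) i, g (a' i) = a' (g • i)) ∧ ∀ i, V.valuation (a' i - a i) ≤ V.valuation l ^ j := by
  obtain ⟨θ, t1, t2, t3⟩ := ex_th hX
  let f := Lagrange.interpolate Finset.univ θ a
  have d : f.degree < (Finset.univ : Finset X).card := Lagrange.degree_interpolate_lt a t1.injOn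
  have e : ∀ i, f.eval (θ i) = a i := fun i =>
    Lagrange.eval_interpolate_at_node a t1.injOn (Finset.mem_univ i)
  have c : ∀ g ∈ dec P, ∀ k, g (f.coeff k) = f.coeff k := fun g hg k => by
    have : f.map (g : Qb →+* Qb) = f := eq_of_degrees_lt_of_eval_index_eq _ t1.injOn
      (by rwa [degree_map]) d fun i _ => by
        have := eval_map_apply (p := f) (g : Qb →+* Qb) (θ (g⁻¹ • i))
        rw [e, RingHom.coe_coe, t2, ha g hg, smul_inv_smul] at this
        rw [this, e]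
    simpa using congrArg (coeff · k) this
  choose r hr using fun k => den o hO (fun g hg => c g hg k) j
  refine ⟨fun i => ∑ k ∈ f.support, (r k : Qb) * θ i ^ k, fun g i => by simp [t2], fun i => ?_⟩
  rw [← e, eval_eq_sum, Polynomial.sum, ← Finset.sum_sub_distrib]
  refine V.valuation.map_sum_le fun k _ => ?_
  rw [← sub_mul, map_mul, Valuation.map_sub_swap]
  exact (mul_le_of_le_one_right' (vint ((t3 i).pow k))).trans (hr k)

/-- **approximation by a global family of a twist** -/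
theorem apx (hX : Os X) (o : Ov pp P) (hO : Vr P V) {s : X → Pt A B} (a : s ∈ Fx (dec P) rm)
    (k : ∀ i, KerV V.valuation (s i)) (j : ℕ) : ∃ (ε : GQ → X → ℤ) (Q : X → Pt A B), Sg ε ∧
    (∀ g ∈ dec P, ∀ i, ε g i = 1) ∧ Q ∈ Fx ⊤ (ra ε) ∧
    ∀ i, KerV V.valuation ((Q - s) i) ∧ V.valuation (zf ((Q - s) i)) ≤ V.valuation pp ^ (j + 1) := by
  have v2 : V.valuation 2 = 1 := by
    simpa using v_one o hO (m := 2) fun d => not_dvd_two (Int.natCast_dvd_natCast.1 d)
  have γ1 : V.valuation pp ^ (j + 1) < 1 := pow_lt_one₀ zero_le' (v_lt o hO) j.succ_ne_zero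
  obtain ⟨z, z1, z2⟩ := surj (A := A) (B := B) (v := V.valuation) hD (z := pp ^ (j + 1)) (by rwa [map_pow])
  have z0 : z ≠ 0 := fun e => pow_ne_zero _ (Nat.cast_ne_zero.2 pp_ne) (z2.symm.trans (by rw [e, zf0]))
  have zf' : ∀ g ∈ dec P, ga g z = z := fun g hg => inj (kv hO hg z1) z1 (by
    rw [zf_ga, z2, map_pow, map_natCast])
  have a' : ∀ g ∈ dec P, ∀ i, ga g (s i) = s (g • i) := fun g hg i => by
    simpa only [rm_apply, inv_smul_smul] using congrFun (a g hg) (g • i)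
  let T : X → Pt A B := fun i => if s i = 0 then z else s i
  have T1 : ∀ g ∈ dec P, ∀ i, ga g (T i) = T (g • i) := fun g hg i => by
    simp only [T, ← a' g hg i]
    by_cases e : s i = 0
    · rw [if_pos e, if_pos (by rw [e, map_zero]), zf' g hg]
    · rw [if_neg e, if_neg fun c => e (by rw [← ga_one (s i), ← inv_mul_cancel g, ga_mul, c, map_zero])]
  have T2 : ∀ i, ∃ a b h, T i = .some a b h ∧ 1 < V.valuation a := fun i => by
    have : T i ≠ 0 ∧ KerV V.valuation (T i) := by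
      simp only [T]
      split_ifs with e
      exacts [⟨z0, z1⟩, ⟨e, k i⟩]
    generalize T i = t at this
    rcases t with _ | ⟨a, b, h⟩
    exacts [absurd rfl this.1, ⟨a, b, h, rfl, not_le.1 this.2⟩]
  have T3 : ∀ i, KerV V.valuation (T i - s i) ∧
      V.valuation (zf (T i - s i)) ≤ V.valuation pp ^ (j + 1) := fun i => by
    simp only [T]
    split_ifs with e
    · rw [e, sub_zero, z2, map_pow]; exact ⟨z1, le_rfl⟩
    · rw [sub_self, zf0, map_zero]; exact ⟨trivial, zero_le'⟩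
  choose x y h e hx using T2
  have T4 : ∀ g ∈ dec P, ∀ i, g (x i) = x (g • i) ∧ g (y i) = y (g • i) := fun g hg i => by
    have := T1 g hg i
    rw [e, e, ga_some] at this
    exact Point.some.inj this
  obtain ⟨x', x1, x2⟩ := dens hX o hO (fun g hg i => (T4 g hg i).1) (j + 1)
  choose y' h' y1 y2 y3 y4 using fun i => cl hD v2 (h i) (hx i) γ1.le (x2 i)
  let Q : X → Pt A B := fun i => .some (x' i) (y' i) (h' i)
  have Q2 : ∀ i, Q i ≠ -Q i := fun i c => Point.some_ne_zero _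
    (tors (v := V.valuation) (Q := Q i) (not_le.2 (y2 i)) (by rw [two_nsmul]; exact add_eq_zero_iff_eq_neg.2 c))
  have Q1 : ∀ (g : GQ) i, ga g (Q (g⁻¹ • i)) = Q i ∨ ga g (Q (g⁻¹ • i)) = -Q i := fun g i =>
    xp_eq (by simp only [Q, ga_some]; exact Point.some_ne_zero _) (Point.some_ne_zero _)
      (by rw [xp_ga]; simp only [Q, xp_some, x1, smul_inv_smul])
  let ε : GQ → X → ℤ := fun g i => if ga g (Q (g⁻¹ • i)) = Q i then 1 else -1
  have pm : ∀ g i, ε g i = 1 ∨ ε g i = -1 := fun g i => by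
    simp only [ε]; split_ifs; exacts [.inl rfl, .inr rfl]
  have ε1 : ∀ g i, ga g (Q (g⁻¹ • i)) = ε g i • Q i := fun g i => by
    simp only [ε]
    split_ifs with c
    · rw [one_smul, c]
    · rw [neg_one_smul, (Q1 g i).resolve_left c]
  have un : ∀ i {s t : ℤ}, s = 1 ∨ s = -1 → t = 1 ∨ t = -1 → s • Q i = t • Q i → s = t := by
    rintro i s t (rfl | rfl) (rfl | rfl) c
    · rfl
    · exact absurd (by simpa using c) (Q2 i)
    · exact absurd (by simpa using c.symm) (Q2 i)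
    · rfl
  refine ⟨ε, Q, ⟨fun g h i => un i (pm _ _) ?_ ?_, pm, fun i => ?_⟩, fun g hg i => if_pos ?_,
    fun g _ => funext fun i => ?_, fun i => ?_⟩
  · rcases pm g i with c | c <;> rcases pm h (g⁻¹ • i) with d | d <;> simp [c, d]
  · rw [← ε1, ga_mul, mul_inv_rev, mul_smul, ε1, map_zsmul, ε1, smul_smul, mul_comm]
  · exact ((hX i).prodMk (lc_pi fun j => (Ki.pr (hq hD)).lc (Q j))).comp
      fun z => if z.2 z.1 = Q i then (1 : ℤ) else -1
  · refine (Q1 g i).resolve_right fun c => ?_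
    have c1 := vlt hO hg (y1 (g⁻¹ • i))
    simp only [Q, ga_some, Point.neg_some] at c
    rw [map_sub, (T4 g hg _).2, smul_inv_smul, (Point.some.inj c).2] at c1
    have c2 := V.valuation.map_add_lt c1 (y1 i)
    rw [show (Cv Qb (A : ℚ) (B : ℚ)).negY (x' i) (y' i) - y i + (y' i - y i) = -(2 * y i) by
      simp [negY]; ring, Valuation.map_neg, map_mul, v2, one_mul] at c2
    exact c2.false
  · rw [ra_apply, ε1, smul_smul]
    rcases pm g i with c | c <;> simp [c]
  · rw [Pi.sub_apply, ← sub_add_sub_cancel (Q i) (T i)]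
    have c1 : KerV V.valuation (Q i - T i) := e i ▸ y3 i
    exact ⟨kerV_add cf c1 (T3 i).1, (add_le c1 (T3 i).1 (e i ▸ y4 i) (T3 i).2).1⟩

variable {n : ℕ} {x y : X → Pt A B}

/-- **isotropy at `pp`** -/
theorem iso_p (hX : Os X) (o : Ov pp P) (a : pp ^ n • x ∈ Fx (dec P) rm)
    (b : pp ^ n • y ∈ Fx (dec P) rm) : B2 cy (dec P) (cu rm (ws hD) n x y) := by
  obtain ⟨V, hO⟩ := ex_O o.2.1 (ne_bot o.1.ne_zero o.2.2)
  let S : AddSubgroup (X → Pt A B) :=
    { carrier := {s | s ∈ Fx (dec P) rm ∧ ∀ i, KerV V.valuation (s i)}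
      add_mem' := fun a b => ⟨add_mem a.1 b.1, fun i => kerV_add cf (a.2 i) (b.2 i)⟩
      zero_mem' := ⟨zero_mem _, fun _ => trivial⟩
      neg_mem' := fun a => ⟨neg_mem a.1, fun i => kerV_neg.2 (a.2 i)⟩ }
  refine isoq (pr_rm hD hX) S (fun _ h => h.1) (fun z hz => (mkx hD o hO z).imp fun N k =>
    ⟨k.1, nsmul_mem hz N, k.2⟩) (fun m z hz => ?_) a b
  obtain ⟨ε, Q, S, e1, q1, q2⟩ := apx hD hX o hO hz.1 hz.2 (2 * m)
  have t : ∀ g ∈ dec P, ∀ Q : X → Pt A B, ra ε g Q = rm g Q := fun g hg => ra_of (e1 g hg)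
  obtain ⟨R, r1, r2⟩ := ud hD hO S.pm (m := pp ^ m) (y := Q - pp ^ m • z)
    (sub_mem (fun g _ => q1 g trivial) fun g hg => (t g hg _).trans (hz.1 g hg)) (fun i => (q2 i).1)
    fun i => (pow_le_pow_left₀ zero_le' (q2 i).2 2).trans_lt (by
      rw [Nat.cast_pow, map_pow, ← pow_mul, ← pow_mul]
      exact pow_lt_pow_right_of_lt_one₀ (v_pos o) (v_lt o hO) (by omega))
  have q3 : pp ^ m • (z + R) ∈ Fx ⊤ (ra ε) := by rwa [nsmul_add, r2, add_sub_cancel]
  have H := pr_ra hD hX S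
  refine b2_congr (Ki.one2 _ (H.z2 q3 q3) P o (fun l hl l2 => ?_) ⟨_, H.iso_inf (fun x => ?_)
    (.mk (IsAlgClosed.lift : Qb →ₐ[ℚ] ℂ).toRingHom) (fun g _ => q3 g trivial)
    fun g _ => q3 g trivial⟩) fun g hg j hj => ?_
  · have := Fact.mk hl
    have o : Ov l _ := ⟨hl, P022D.Loc2.PP_prime l, P022D.Loc2.p_mem_PP l⟩
    exact ⟨_, o, H.iso0 (dvo hD o l2 S.pm) (fun g _ => q3 g trivial) fun g _ => q3 g trivial⟩
  · have : ∀ i, ε 1 i = 1 := fun i => by
      have := S.mul 1 1 i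
      rw [mul_one, inv_one, one_smul] at this
      exact (S.pm 1 i).resolve_right fun c => by rw [c] at this; norm_num at this
    rw [ra_of this]
    exact funext fun i => by rw [rm_apply, inv_one, one_smul, ga_one]
  · rw [cu, cu, map_add, map_add, r1 g hg, r1 j hj, add_sub_add_right_eq_sub,
      add_sub_add_right_eq_sub, t g hg, t g hg, t j hj, sub_self]
    exact zero_mem _

/-- **isotropy at every prime** -/
theorem isoM (hX : Os X) (o : Ov l P) (a : pp ^ n • x ∈ Fx (dec P) rm)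
    (b : pp ^ n • y ∈ Fx (dec P) rm) : B2 cy (dec P) (cu rm (ws hD) n x y) := by
  by_cases h2 : l = pp
  · exact iso_p hD hX (h2 ▸ o) a b
  · exact (pr_rm hD hX).iso0 (ra_one (X := X) (A := A) (B := B) ▸ dvo hD o h2 sg_one.pm) a b

end Vale.Agent.P014Y.Wp
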