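import Vale.Agent.P004K.All

/-! # P014Y, block Wp: the Euler system of Heegner points for all conductors -/

set_option autoImplicit false
set_option linter.all false

open UpperHalfPlane NumberField CongruenceSubgroup
open scoped MatrixGroups Classical

noncomputable section

namespace Vale.Agent.P014Y.Wp

open Vale.Agent.P022 Vale.Agent.P004K P027H P027M.M Vale.Agent.P022.H218.L3
open P004Z (Tdiv)
open P004Z.EF (Val RatS Par)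
open P004M.TE (Pt ga Cv pa pa_inj ga_some crv_map)

/-- **the Euler system of Heegner points**, no condition on the conductor -/
def HEW : Prop := ∀ (K : Type) [Field K] [NumberField K] (j : K →+* Qb), Iq K → Upm K →
  ∀ N G a A B w Λ F x y (I : Ideal (𝓞 K)), P004N.RN N G a → Par N a A B w Λ F x y →
  Cn N I → ∃ (Y : ℕ → Pt A B) (M : ℕ), 0 < M ∧
    ∀ c, 0 < c →
    (∀ g σ τ τ', Ex σ g → Hp (JJ j) N I c τ → Cj0 σ N τ τ' → Un Λ (F τ') (ga g (Y c))) ∧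
    (∀ g ∈ Hc j c, ga g (Y c) = Y c) ∧
    ∀ l n t, l.Prime → ¬ l ∣ c * N → Gen j c l n t →
      ((Ideal.span {(l : 𝓞 K)}).IsPrime →
        ∑ i ∈ Finset.range n, ga (t ^ i) (Y (c * l)) = a l • Y c ∧
        (¬ l ∣ M → ∀ P : Ideal (𝓞 Qb), P.IsPrime → (l : 𝓞 Qb) ∈ P → ∀ φ : GQ,
          (∀ x : 𝓞 Qb, φ • x - x ^ l ∈ P) → K1 P (Y (c * l) - ga φ (Y c)))) ∧
      ∀ (L L' : Ideal (𝓞 K)) g g', L ⊔ L' = ⊤ → L ≠ ⊤ → L' ≠ ⊤ →
        L * L' = Ideal.span {(l : 𝓞 K)} → Ar j c L g → Ar j c L' g' →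
        ∑ i ∈ Finset.range n, ga (t ^ i) (Y (c * l)) = a l • Y c - ga g (Y c) - ga g' (Y c)

namespace Hw

def HG1W : Prop := ∀ (K : Type) [Field K] [NumberField K] (j : K →+* Qb), Iq K →
  ∀ (N c : ℕ) (I : Ideal (𝓞 K)), 0 < N → 0 < c → Cn N I →
  (∃ τ, Hp (JJ j) N I c τ) ∧
  (∀ τ τ', Hp (JJ j) N I c τ → (Hp (JJ j) N I c τ' ↔ ∃ γ ∈ Gamma0 N, γ • τ = τ')) ∧
  ∀ τ σ, ∀ g ∈ GK j, Hp (JJ j) N I c τ → Ex σ g → (g ∈ Hc j c ↔ Cj0 σ N τ τ)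

def HG2W : Prop := ∀ (K : Type) [Field K] [NumberField K] (j : K →+* Qb), Iq K → Upm K →
  ∀ (N c l n : ℕ) (I : Ideal (𝓞 K)) (t : GQ) (σ : ℂ ≃+* ℂ) (τ τ' : ℍ) (w : ℕ → ℍ), 0 < N → 0 < c →
  Cn N I → l.Prime → ¬ l ∣ c * N → Gen j c l n t → Ex σ t → Hp (JJ j) N I c τ →
  Hp (JJ j) N I (c * l) τ' → (∀ i, Cj0 (σ ^ i) N τ' (w i)) →
  ∀ (B : Type) [AddCommGroup B] (Φ : ℍ → B), (∀ γ ∈ Gamma0 N, ∀ z, Φ (γ • z) = Φ z) →
    ((Ideal.span {(l : 𝓞 K)}).IsPrime → ∑ i ∈ Finset.range n, Φ (w i) = Tl l Φ τ) ∧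
    ∀ (L L' : Ideal (𝓞 K)) g g' s s' z z', L ⊔ L' = ⊤ → L ≠ ⊤ → L' ≠ ⊤ →
      L * L' = Ideal.span {(l : 𝓞 K)} → Ar j c L g → Ar j c L' g' → Ex s g → Ex s' g' →
      Cj0 s N τ z → Cj0 s' N τ z' → ∑ i ∈ Finset.range n, Φ (w i) + Φ z + Φ z' = Tl l Φ τ

def CGEW : Prop := ∀ (K : Type) [Field K] [NumberField K] (j : K →+* Qb), Iq K →
  ∀ N a A B w Λ F x y (I : Ideal (𝓞 K)), 0 < N → Par N a A B w Λ F x y → F ∈ Hol → Cn N I →
  ∃ M, 0 < M ∧ ∀ c l : ℕ, 0 < c → l.Prime → ¬ l ∣ c * N → ¬ l ∣ M →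
    (Ideal.span {(l : 𝓞 K)}).IsPrime → ∀ P : Ideal (𝓞 Qb), P.IsPrime → (l : 𝓞 Qb) ∈ P →
    ∀ (φ : GQ) σ, (∀ x : 𝓞 Qb, φ • x - x ^ l ∈ P) → Ex σ φ → ∀ τ τ' τ'', Hp (JJ j) N I c τ →
    Hp (JJ j) N I (c * l) τ' → Cj0 σ N τ τ'' → ∀ Y : Pt A B, Un Λ (F τ' - F τ'') Y → K1 P Y

def CMRW : Prop := ∀ (K : Type) [Field K] [NumberField K] (j : K →+* Qb), Iq K →
  ∀ (N : ℕ) (I : Ideal (𝓞 K)) (c l : ℕ), 0 < N → Cn N I → 0 < c → l.Prime →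
  ¬ l ∣ c * N → l ≠ 2 → (Ideal.span {(l : 𝓞 K)}).IsPrime → ∀ (A : ValuationSubring ℂ) σ,
  A.valuation l < 1 → Gm.Fr A σ l → ∀ τ τ' τ'', Hp (JJ j) N I c τ → Hp (JJ j) N I (c * l) τ' →
  Cj0 σ N τ τ'' → ∃ γ₁ ∈ Gamma0 N, ∃ γ₂ ∈ Gamma0 N, Nr A N (γ₁ • τ') (γ₂ • τ'')

open Hg in
theorem hg1 (hI : IQ) (hJ : JH) (h1 : P004K.RC1) (hC : CJ0) : HG1W := fun K _ _ j q N c I hN hc hn => by
  obtain ⟨ω, B⟩ := bs hI q j
  refine ⟨?_, fun τ τ' h => at_uq hC hN h, fun τ σ g hg h e => ?_⟩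
  · obtain ⟨η, hη, B⟩ := B.ex hn
    obtain ⟨t, n, e⟩ := B.sq
    exact (B.hp hc hN e hn hη).imp fun _ k => k.2
  · rw [hc_iff h1 q hc e hg]
    refine ⟨fun k => ?_, fun ⟨ψ, t, _⟩ => (At.j h).trans (t.jL.trans (congrArg σ (At.j h).symm))⟩
    obtain ⟨ψ, t⟩ := tp_of_j hJ (B.lat hc) (B.lat hc) k
    exact (st_cj hN h t (e.JJ hg)).1 h

open Hg in
theorem hg2 (hI : IQ) (hJ : JH) (h1 : P004K.RC1) (h2 : RC2) (hC : CJ0) : HG2W :=
    fun K _ _ j q U N c l n I t σ τ τ' w hN hc hn hl nd G ex hp hp' hw B _ Φ hΦ => by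
  obtain ⟨η, B0⟩ := bs hI q j
  have h0 : (l : ℂ) ≠ 0 := by exact_mod_cast hl.ne_zero
  have co : IsCoprime (l : ℤ) c := (cop_p hl fun d => nd
    ((Int.natCast_dvd_natCast.1 d).mul_right N)).symm
  have co' : IsCoprime (l : ℤ) N := (cop_p hl fun d => nd
    ((Int.natCast_dvd_natCast.1 d).mul_left c)).symm
  obtain ⟨ω, h, hs⟩ := at_iff.1 hp
  obtain ⟨κ, k1, k2, k3⟩ := main hJ h1 h2 hC q U B0 hN hc hl co G ex h hp' hw
  have ph : ∀ k z, At N (ov (Oc (JJ j) c) (xk ω τ l k))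
      (st (JJ j) I (ov (Oc (JJ j) c) (xk ω τ l k))) z → Φ z = Φ (pk τ l k) := fun k z e => by
    rw [st_ov (m := l) (xk_mul hl h) ((hn.1 N).2 dvd_rfl) co' hs] at e
    obtain ⟨γ, a, rfl⟩ := (at_uq hC hN (at_k hl h hN co')).1 e
    exact hΦ γ a _
  have s1 : ∑ i ∈ Finset.range n, Φ (w i) = ∑ k ∈ (Finset.range n).image κ, Φ (pk τ l k) := by
    rw [Finset.sum_image k2]
    exact Finset.sum_congr rfl fun i _ => ph _ _ (k1 i).2.2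
  have im : ∀ k, k ∈ (Finset.range n).image κ ↔
      k ≤ l ∧ Go (JJ j) c l (ov (Oc (JJ j) c) (xk ω τ l k)) := fun k => by
    simp only [Finset.mem_image, Finset.mem_range]
    exact ⟨fun ⟨i, _, e⟩ => e ▸ ⟨(k1 i).1, (k1 i).2.1⟩, fun e => k3 k e.1 e.2⟩
  have xa : ∀ k, ∃ a, JJ j a ∈ Oc (JJ j) c ∧ xk ω τ l k = JJ j a / l := fun k => by
    obtain ⟨a, e⟩ := ex_J (xk_mul hl h (k := k))
    exact ⟨a, e ▸ xk_mul hl h, by rw [e, mul_div_cancel_left₀ _ h0]⟩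
  rw [s1, tl_eq]
  refine ⟨fun pr => Finset.sum_congr (Finset.ext fun k => ?_) fun _ _ => rfl,
    fun L L' g g' s s' z z' e1 e2 e3 e4 ar ar' ex ex' c1 c2 => ?_⟩
  · rw [im, Finset.mem_range, Nat.lt_succ_iff, and_iff_left]
    obtain ⟨a, ma, e⟩ := xa k
    obtain ⟨u, v, hv, p⟩ := (pr.isMaximal (mt Ideal.span_singleton_eq_bot.1
      (Nat.cast_ne_zero.2 hl.ne_zero))).exists_inv (x := a) fun d =>
        xk_not hl h (e ▸ div_Oc hl.pos co ma (Ideal.mem_span_singleton.1 d))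
    obtain ⟨d, rfl⟩ := Ideal.mem_span_singleton'.1 hv
    exact ⟨a, ⟨u, d, p⟩, ma, by rw [e]⟩
  have e1' := (sup_comm L' L).trans e1
  have e4' := (mul_comm L' L).trans e4
  have n1 := B0.cn hl e1 e2 e3 e4
  have n2 := B0.cn hl e1' e3 e2 e4'
  obtain ⟨a, ha, p⟩ := B0.st_k hl hc n1 h
  obtain ⟨b, hb, p'⟩ := B0.st_k hl hc n2 h
  have zz : ∀ L g s z k, st (JJ j) L (Oc (JJ j) c) = ov (Oc (JJ j) c) (xk ω τ l k) → Ar j c L g →
      Ex s g → Cj0 s N τ z → Φ z = Φ (pk τ l k) := fun L g s z k p ar ex c1 => by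
    obtain ⟨ψ, t⟩ := tp_of_j hJ (σ := s) (B0.lat hc) (ov_lat (B0.lat hc) hl.pos (xk_mul hl h))
      (by rw [ar_j h1 q hc ex, ar.2, p])
    exact ph k z ((st_cj hN hp t (ex.JJ ar.1)).2 c1)
  have na : a ∉ (Finset.range n).image κ := fun e =>
    not_go hl e1 e3 e4 B0 co (p ▸ ((im a).1 e).2)
  have nb : b ∉ insert a ((Finset.range n).image κ) := fun e => (Finset.mem_insert.1 e).elim
    (fun e => xk_not hl h (st_ne e1 co (p.ge self_ov) (p'.ge (e ▸ self_ov)) (xk_mul hl h)))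
    fun e => not_go hl e1' e2 e4' B0 co (p' ▸ ((im b).1 e).2)
  rw [zz L g s z a p ar ex c1, zz L' g' s' z' b p' ar' ex' c2, add_comm _ (Φ (pk τ l a)),
    ← Finset.sum_insert (f := fun k => Φ (pk τ l k)) na, add_comm,
    ← Finset.sum_insert (f := fun k => Φ (pk τ l k)) nb]
  refine Finset.sum_congr (Finset.ext fun k => ?_) fun _ _ => rfl
  rw [Finset.mem_insert, Finset.mem_insert, im, Finset.mem_range, Nat.lt_succ_iff]
  refine ⟨fun e => e.elim (· ▸ hb) fun e => e.elim (· ▸ ha) And.left, fun hk => ?_⟩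
  obtain ⟨d, md, e⟩ := xa k
  by_cases d1 : d ∈ L
  · exact Or.inl (xk_inj hl h hk hb (ov_eq hl (p'.le (e ▸ mem_st_split hl e4' co md d1))
      (xk_not hl h) (xk_mul hl h)))
  by_cases d2 : d ∈ L'
  · exact Or.inr (Or.inl (xk_inj hl h hk ha (ov_eq hl (p.le (e ▸ mem_st_split hl e4 co md d2))
      (xk_not hl h) (xk_mul hl h))))
  · exact Or.inr (Or.inr ⟨hk, d, cop_split hl e4 n1 n2 d1 d2, md, by rw [e]⟩)

open Cm1 Gm in
theorem cmr : CMRW := fun K _ _ j q N I c l hN hn hc hl hd h2 hp A σ vl F τ τ' τ'' h h' k => by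
  obtain ⟨ω, B⟩ := Rc.iq0 j q
  obtain ⟨η, hη, B⟩ := Hg.Bs.ex ⟨B.1, B.2⟩ hn
  obtain ⟨t, n, e⟩ := B.sq
  have hcl := mul_pos hc hl.pos
  obtain ⟨τ₀, e0, p0⟩ := B.hp hc hN e hn hη
  obtain ⟨τ₁, e1, p1⟩ := B.hp hcl hN e hn hη
  obtain ⟨q₀, a0, b0⟩ := Hg.form_of B hc p0.choose_spec.1
  obtain ⟨q₁, a1, b1⟩ := Hg.form_of B hcl p1.choose_spec.1
  obtain ⟨μ₀, Λ₀, W₀, H0, G0⟩ := gd a0 b0 A
  obtain ⟨μ₁, Λ₁, W₁, H1, G1⟩ := gd a1 b1 A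
  have vL : A.valuation (N * 4 : ℕ) = 1 := by
    obtain ⟨u, w, e⟩ := Nat.isCoprime_iff_coprime.2 (Nat.Coprime.mul_right
      (hl.coprime_iff_not_dvd.2 fun d => hd (d.mul_left c))
      (((Nat.coprime_primes hl Nat.prime_two).2 h2).pow_right 2))
    have le := fun n : ℤ => (A.valuation_le_one_iff n).2 (intCast_mem A n)
    refine by_contra fun z => (A.valuation.map_add_lt (x := u * l) (y := w * (N * 4 : ℕ)) ?_ ?_).ne
      ((congrArg _ (by exact_mod_cast e)).trans A.valuation.map_one) <;> rw [map_mul]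
    · exact (mul_le_of_le_one_left' (le u)).trans_lt vl
    · exact (mul_le_of_le_one_left' (le w)).trans_lt
        (lt_of_le_of_ne (by exact_mod_cast le (N * 4 : ℕ)) z)
  obtain ⟨τ₂, c2, r⟩ := nr hN (hl.odd_of_ne_two h2) vL H1 G1 F a0 b0
    (fun v hv => (rf_red (lv4 hN) vL H0 G0 hv).1) (frob (lv4 hN) vL hl.pos (by
      push_cast at e1
      linear_combination l * τ₁ * e0 - τ₀ * e1) H0 G0 H1 G1 (tors hl.pos vl
      (Nat.isCoprime_iff_coprime.2 (hl.coprime_iff_not_dvd.2 fun d => hd (d.mul_right N)))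
      (hp.isMaximal (by simpa using hl.ne_zero)) (p0.choose_spec.1.symm.trans H0) G0))
  obtain ⟨γ₁, g1, rfl⟩ := (Hg.at_uq cj0 hN h').1 p1
  obtain ⟨γ₂, g2, rfl⟩ := (k.tgt hN).1 ((c2.src hN).2 ((Hg.at_uq cj0 hN p0).1 h))
  exact ⟨γ₁, g1, γ₂, g2, r⟩

open Cg H236.L3 in
theorem cge_of (f : FFR) (cm : CMRW) : CGEW := by
  intro K _ _ j hK N a a' b' w Λ F x y I hN par hF hI
  obtain ⟨M₁, p1, f1⟩ := f N hN x par.xm (fs_of hN par.xm par.xq)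
  obtain ⟨M₂, p2, f2⟩ := f N hN y par.ym (fs_of hN par.ym par.yq)
  refine ⟨M₁ * M₂ * (2 * (4 * a' ^ 3 + 27 * b' ^ 2).natAbs), by
    have := Int.natAbs_pos.2 par.disc
    positivity, fun c l hc hl lc lM pr P hP lP φ σ hφ hσ τ τ' τ'' h1 h2 h3 Y hY => ?_⟩
  obtain ⟨A, hA⟩ := Gm.exists_place hP
  have le := fun {z} => A.valuation_le_one_iff z
  have v1 (n : ℤ) (h : ¬ (l : ℤ) ∣ n) : A.valuation n = 1 := by
    obtain ⟨u, v, e⟩ := ((Nat.prime_iff_prime_int.1 hl).irreducible.coprime_iff_not_dvd).2 h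
    have := (hA n).2.2 fun k => hP.ne_top ((Ideal.eq_top_iff_one _).2 (by
      have := P.add_mem (P.mul_mem_left (u : 𝓞 Qb) lP) (P.mul_mem_left (v : 𝓞 Qb) k)
      rwa [← Int.cast_natCast, ← Int.cast_mul, ← Int.cast_mul, ← Int.cast_add, e, Int.cast_one] at this))
    simpa using this
  have v2 (n : ℕ) (h : ¬ l ∣ n) : A.valuation n = 1 := by
    simpa using v1 n (mt Int.natCast_dvd_natCast.1 h)
  have vl : A.valuation l < 1 := by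
    have := lt_of_le_of_ne (le.2 (hA l).1) fun k => (hA l).2.1 k lP
    simpa using this
  obtain ⟨γ₁, g1, γ₂, g2, nr⟩ := cm K j hK N I c l hN hI hc hl lc
    (fun e => lM (by rw [e]; exact (dvd_mul_right 2 _).mul_left _)) pr A σ vl (Gm.fr_of hP (fun e => hl.ne_zero
      (by simpa [e] using lP)) hA hσ hl.ne_zero hφ) τ τ' τ'' h1 h2 h3
  have k1 := f1 A (v2 _ fun k => lM ((k.mul_right _).mul_right _)) _ _ nr
  have k2 := f2 A (v2 _ fun k => lM ((k.mul_left _).mul_right _)) _ _ nr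
  simp only [val_MF par.xm g1, val_MF par.xm g2, val_MF par.ym g1, val_MF par.ym g2] at k1 k2
  have G : Gd A Λ (Wc a' b') := ⟨par.lat, ⟨zero_mem _, zero_mem _, zero_mem _, intCast_mem _ _,
    intCast_mem _ _⟩, by
      rw [show (Wc a' b').Δ = -((2 : ℕ) ^ 4 * (4 * a' ^ 3 + 27 * b' ^ 2 : ℤ)) by
        simp only [Wc, WeierstrassCurve.Δ, WeierstrassCurve.b₂, WeierstrassCurve.b₄,
          WeierstrassCurve.b₆, WeierstrassCurve.b₈]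
        push_cast
        ring, Valuation.map_neg, map_mul, map_pow, v2 2 fun k => lM ((k.mul_right _).mul_left _),
        v1 _ fun k => lM (((Int.natCast_dvd.1 k).mul_left _).mul_left _), one_pow, one_mul], by
      simp only [par.g2_eq, Wc, WeierstrassCurve.c₄, WeierstrassCurve.b₂, WeierstrassCurve.b₄]
      ring, by
      simp only [par.g3_eq, Wc, WeierstrassCurve.c₆, WeierstrassCurve.b₂, WeierstrassCurve.b₄,
        WeierstrassCurve.b₆]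
      ring⟩
  have s1 {t : ℍ} (h : ¬ Sk A Λ (Wc a' b') (F t)) :
      F t ∉ Λ ∧ wp Λ (F t) ∈ A ∧ dwp Λ (F t) / 2 ∈ A := by
    have m := xx_eq a' b' Λ _ ▸ Gm.xx_mem h
    refine ⟨(not_or.1 h).1, m, le.1 ((pow_le_one_iff two_ne_zero).1 ?_)⟩
    rw [← map_pow, le, show (dwp Λ (F t) / 2) ^ 2 = wp Λ (F t) ^ 3 + a' * wp Λ (F t) + b' by
      rw [div_pow, par.lat.ode (not_or.1 h).1, par.g2_eq, par.g3_eq]; ring]
    exact add_mem (add_mem (pow_mem m 3) (mul_mem (intCast_mem _ _) m)) (intCast_mem _ _)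
  have s2 {t : ℍ} {b : ℂ} (hb : b ∈ A) (h : Val t x b) :
      ¬ Sk A Λ (Wc a' b') (F t) ∧ wp Λ (F t) = b := by
    have m := (pole par hF).1 (val_iff.1 h).1
    have e := val_uq (par.xv t m) h
    exact ⟨fun k => k.elim m fun k => k (by rwa [xx_eq, e]), e⟩
  have sk : Sk A Λ (Wc a' b') (F τ' - F τ'') := by
    by_cases c1 : Sk A Λ (Wc a' b') (F τ')
    · refine Gm.sk_sub G c1 (by_contra fun c2 => ?_)
      obtain ⟨b, hb, e, -⟩ := (k1 _ (s1 c2).2.1).2 (par.xv _ (s1 c2).1)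
      exact (s2 hb e).1 c1
    obtain ⟨b, hb, e, r⟩ := (k1 _ (s1 c1).2.1).1 (par.xv _ (s1 c1).1)
    obtain ⟨c2, rfl⟩ := s2 hb e
    obtain ⟨b, -, e', r'⟩ := (k2 _ (s1 c1).2.2).1 (par.yv _ (s1 c1).1)
    obtain rfl := val_uq (par.yv _ (s1 c2).1) e'
    obtain ⟨n1, e1⟩ := Gm.rd_of G c1
    obtain ⟨n2, e2⟩ := Gm.rd_of G c2
    rw [← Gm.rd_eq_zero G, map_sub, sub_eq_zero, e1, e2, WeierstrassCurve.Affine.Point.some.injEq,
      xb, xb, xx_eq, xx_eq, yy_eq, yy_eq]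
    exact ⟨r.symm, r'.symm⟩
  rintro u v h rfl ⟨s, t, hs, e⟩
  by_cases m : F τ' - F τ'' ∈ Λ
  · exact WeierstrassCurve.Affine.Point.some_ne_zero _ (hY.1 m)
  obtain ⟨u', v', h', e1, e2, -⟩ := hY.2 m
  obtain ⟨rfl, -⟩ := WeierstrassCurve.Affine.Point.some.inj e1
  refine sk.resolve_left m ?_
  have := le.2 (hA t).1
  rwa [← e, map_mul, map_mul, (hA s).2.2 hs, one_mul, e2, le, ← xx_eq a' b'] at this

open Hq WeierstrassCurve.Affine in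
theorem hew_of (h1 : HG1W) (h2 : HG2W) (cg : CGEW) : HEW := by
  intro K _ _ j iq up N G a A B w Λ F x y I rn D cn
  have hN := rn.pos
  have eF : F = (w : ℂ)⁻¹ • P004N.Pr fun n => (a n : ℂ) :=
    funext fun z => by rw [D.I_eq, div_eq_inv_mul]; rfl
  have hF : F ∈ Hol :=
    eF ▸ Subalgebra.smul_mem _ (P004Z.EF.prim_Pr rn.qe (by simp [rn.zero])).hol _
  have hT : ∀ l : ℕ, l.Prime → ¬ l ∣ N → Tdiv l F = (a l : ℂ) • F := fun l hl k => by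
    rw [eF, map_smul, P004Z.Ar.tdiv_Pr hl rn.qe, smul_comm, ← P004Z.Ar.Pr_smul (a l)]
    exact congrArg (_ • P004N.Pr ·) (funext (rn.te l hl k))
  obtain ⟨ex, -, ker, U⟩ := Hg.un_iff D.lat D.g2_eq D.g3_eq
  have pi := pi_row N a A B w Λ F x y hN D hF
  have inv : ∀ γ ∈ Gamma0 N, ∀ z, ex (F (γ • z)) = ex (F z) := fun γ m z => by
    rw [← sub_eq_zero, ← map_sub, ker]
    exact pi 1 id ⟨D.lat, D.lat, fun _ => Iff.rfl, fun _ _ => by simp, fun z => ⟨z, by simp⟩,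
      fun _ => rfl, fun _ => rfl⟩ _ _ ((cj0_one hN).2 ⟨γ, m, rfl⟩)
  have key : ∀ c, ∃ Y : Pt A B, 0 < c → ∀ g σ τ τ', Ex σ g → Hp (JJ j) N I c τ →
      Cj0 σ N τ τ' → ex (F τ') = pa io (ga g Y) := fun c => by
    by_cases k : 0 < c
    swap
    · exact ⟨0, fun p => absurd p k⟩
    obtain ⟨⟨τ, hτ⟩, uq, fx⟩ := h1 K j iq N c I hN k cn
    have al : ∀ f ∈ MF (Gamma0 N), (∃ s, H236.L3.ExM 1 s f ∧ P004Z.EF.RatS s) → ∀ v, Val τ f v →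
        IsAlgebraic ℚ v := fun f m ⟨s, p, q⟩ v e =>
      Gm.alg_of_fin (Set.finite_singleton v) fun σ hσ => ((val_iff.1 (tr0 σ N τ τ hN
        ((fx τ σ 1 (one_mem _) hτ fun b => hσ _ (alg_io b)).1 (one_mem _)) f m s p q v e)).2.symm.trans
          (val_iff.1 e).2 :)
    obtain ⟨Y, hY⟩ := ex_pt D.lat D.g2_eq D.g3_eq D.disc (z := F τ) fun n =>
      ⟨al x D.xm D.xq _ (D.xv τ n), al y D.ym D.yq _ (D.yv τ n)⟩
    refine ⟨Y, fun _ g σ s s' e hs r => ?_⟩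
    obtain ⟨φ, t⟩ := ex_tr D.lat D.g2_eq D.g3_eq σ
    obtain ⟨γ, m, rfl⟩ := (uq τ s hτ).1 hs
    rw [← (U _ _).1 ((un A B Λ D.lat D.g2_eq D.g3_eq).2.2 (F (γ • τ)) Y σ g φ
      ((U _ _).2 ((inv γ m τ).trans ((U _ _).1 hY))) e t), eq_comm, ← sub_eq_zero, ← map_sub, ker]
    exact pi σ φ t _ _ r
  choose Y hY using key
  obtain ⟨M, M0, hM⟩ := cg K j iq N a A B w Λ F x y I hN D hF cn
  refine ⟨Y, M, M0, fun c c0 => ?_⟩
  obtain ⟨⟨τ, hτ⟩, -, fx⟩ := h1 K j iq N c I hN c0 cn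
  have y0 : ex (F τ) = pa io (Y c) := by
    simpa only [ga_one] using hY c c0 1 1 τ τ Ex.one hτ (Cj0.refl hN τ)
  refine ⟨fun g σ s s' e p q => (U _ _).2 (hY c c0 g σ s s' e p q), fun g m => ?_,
    fun l n t hl nd gen => ?_⟩
  · obtain ⟨σ, e⟩ := ex_ex g
    exact pa_inj io ((hY c c0 g σ τ τ e hτ ((fx τ σ g m.1 hτ e).1 m)).symm.trans y0)
  have nN : ¬ l ∣ N := fun k => nd (k.mul_left c)
  have l0 := Nat.mul_pos c0 hl.pos
  obtain ⟨⟨τ', hτ'⟩, -⟩ := h1 K j iq N (c * l) I hN l0 cn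
  obtain ⟨σ, e⟩ := ex_ex t
  choose v hv using fun i : ℕ => ex_cj0 (σ ^ i) hN τ'
  obtain ⟨k1, k2⟩ := h2 K j iq up N c l n I t σ τ τ' v hN c0 cn hl nd gen e hτ hτ' hv _
    (fun z => ex (F z)) inv
  have s1 : pa io (∑ i ∈ Finset.range n, ga (t ^ i) (Y (c * l))) =
      ∑ i ∈ Finset.range n, ex (F (v i)) := by
    rw [map_sum]
    exact Finset.sum_congr rfl fun i _ => (hY _ l0 _ _ _ _ (e.pow i) hτ' (hv i)).symm
  have s2 : Tl l (fun z => ex (F z)) τ = pa io (a l • Y c) := by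
    rw [map_zsmul, ← y0, ← map_zsmul, zsmul_eq_mul, ← smul_eq_mul, ← Pi.smul_apply, ← hT l hl nN,
      Tl, ← map_sum, ← map_add]
    rfl
  refine ⟨fun pr => ⟨pa_inj io (s1.trans ((k1 pr).trans s2)), fun nM P hP lP φ fr => ?_⟩,
    fun L L' g g' p q r s u u' => pa_inj io ?_⟩
  · obtain ⟨ρ, eρ⟩ := ex_ex φ
    obtain ⟨τ'', r⟩ := ex_cj0 ρ hN τ
    refine hM c l c0 hl nd nM pr P hP lP φ ρ fr eρ τ τ' τ'' hτ hτ' r _ ((U _ _).2 ?_)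
    rw [map_sub, map_sub, hY c c0 φ ρ τ τ'' eρ hτ r,
      hY _ l0 1 1 τ' τ' Ex.one hτ' (Cj0.refl hN τ'), ga_one]
  · obtain ⟨ρ, eρ⟩ := ex_ex g
    obtain ⟨ρ', eρ'⟩ := ex_ex g'
    obtain ⟨z, hz⟩ := ex_cj0 ρ hN τ
    obtain ⟨z', hz'⟩ := ex_cj0 ρ' hN τ
    rw [s1, map_sub, map_sub, ← s2, ← k2 L L' g g' ρ ρ' z z' p q r s u u' eρ eρ' hz hz',
      ← hY c c0 g ρ τ z eρ hτ hz, ← hY c c0 g' ρ' τ z' eρ' hτ hz']
    abel

end Hw

theorem hew : HEW := Hw.hew_of (Hw.hg1 Rc.iq jh x_rc1 cj0) (Hw.hg2 Rc.iq jh x_rc1 x_rc2 cj0)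
  (Hw.cge_of ffr Hw.cmr)

end Vale.Agent.P014Y.Wp
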