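import Mathlib

/-! # P014Y, block Wp: a character with a non torsion component (algebra) -/

set_option autoImplicit false
set_option linter.all false

open scoped Classical

noncomputable section

namespace Vale.Agent.P014Y.Wp.Ch

variable {G M : Type} [CommGroup G] [AddCommGroup M]

/-- evaluation of the group ring -/
def ev (f : G → M) : MonoidAlgebra ℤ G →+ M :=
  (Finsupp.liftAddHom fun g => zmultiplesHom M (f g)).comp
    MonoidAlgebra.coeffAddEquiv.toAddMonoidHom

theorem ev_single (f : G → M) (g : G) (n : ℤ) : ev f (MonoidAlgebra.single g n) = n • f g :=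
  Finsupp.liftAddHom_apply_single (fun g => zmultiplesHom M (f g)) g n

/-- the sum of a set -/
def sm (C : Finset G) : MonoidAlgebra ℤ G := ∑ x ∈ C, MonoidAlgebra.of ℤ G x

theorem ev_sm (f : G → M) (C : Finset G) : ev f (sm C) = ∑ x ∈ C, f x := by
  simp only [sm, map_sum, MonoidAlgebra.of_apply, ev_single, one_smul]

variable {f : G → M} {ρ : G → M →+ M} (hρ : ∀ g x, ρ g (f x) = f (g * x))

include hρ in
theorem sh (g : G) (n : ℤ) (w : MonoidAlgebra ℤ G) :
    ev f (MonoidAlgebra.single g n * w) = n • ρ g (ev f w) := by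
  induction w using MonoidAlgebra.induction_linear with
  | zero => simp
  | add a b ha hb => rw [mul_add, map_add, ha, hb, map_add, map_add, smul_add]
  | single x m => rw [MonoidAlgebra.single_mul_single, ev_single, ev_single, map_zsmul, hρ, mul_smul]

/-- the relations -/
def rl : Ideal (MonoidAlgebra ℤ G) where
  carrier := {w | ev f w ∈ AddCommGroup.torsion M}
  add_mem' := fun a b => by simpa only [Set.mem_setOf_eq, map_add] using add_mem a b
  zero_mem' := by simpa only [Set.mem_setOf_eq, map_zero] using zero_mem _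
  smul_mem' := fun r w hw => by
    change ev f (r * w) ∈ AddCommGroup.torsion M
    induction r using MonoidAlgebra.induction_linear with
    | zero => simpa using zero_mem _
    | add a b ha hb => rw [add_mul, map_add]; exact add_mem ha hb
    | single x m => rw [sh hρ]; exact zsmul_mem ((ρ x).isOfFinAddOrder hw) m

theorem mem_rl {w : MonoidAlgebra ℤ G} : w ∈ rl hρ ↔ IsOfFinAddOrder (ev f w) := Iff.rfl

theorem bs {B : Finset G} {b : G} (h : B.image (b * ·) = B) :
    MonoidAlgebra.of ℤ G b * sm B = sm B := by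
  conv_rhs => rw [← h]
  simp only [sm, Finset.mul_sum, ← map_mul]
  rw [Finset.sum_image fun _ _ _ _ => mul_left_cancel]

theorem dom {R : Type} [CommRing R] (I : Ideal R) (s : R) (c : ℤ) (c0 : c ≠ 0) (ss : s * s = c * s)
    (h : ∀ n : ℤ, n ≠ 0 → n * s ∉ I) : ∃ P : Ideal R, P.IsPrime ∧ I ≤ P ∧ s ∉ P ∧
      ∀ n : ℤ, n ≠ 0 → (n : R) ∉ P := by
  let S : Submonoid R :=
    { carrier := {x | ∃ n : ℤ, n ≠ 0 ∧ (x = n ∨ x = n * s)}
      one_mem' := ⟨1, one_ne_zero, .inl (by simp)⟩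
      mul_mem' := by
        rintro _ _ ⟨n, a, rfl | rfl⟩ ⟨m, b, rfl | rfl⟩
        · exact ⟨n * m, mul_ne_zero a b, .inl (by simp)⟩
        · exact ⟨n * m, mul_ne_zero a b, .inr (by push_cast; ring)⟩
        · exact ⟨n * m, mul_ne_zero a b, .inr (by push_cast; ring)⟩
        · exact ⟨n * m * c, mul_ne_zero (mul_ne_zero a b) c0, .inr (by
            push_cast; linear_combination (n * m : R) * ss)⟩ }
  obtain ⟨P, pr, le, dj⟩ := I.exists_le_prime_disjoint S (Set.disjoint_left.2 (by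
    rintro _ k ⟨n, a, rfl | rfl⟩
    · exact h n a (I.mul_mem_right _ k)
    · exact h n a k))
  exact ⟨P, pr, le, fun k => Set.disjoint_left.1 dj k ⟨1, one_ne_zero, .inr (by simp)⟩,
    fun n a k => Set.disjoint_left.1 dj k ⟨n, a, .inl rfl⟩⟩

theorem chr [Finite G] {p K : ℕ} (hp : p.Prime) {R : Type} [CommRing R] [IsDomain R] (φ : G →* R)
    (h : ∀ g, φ (g ^ p ^ K) = 1) : ∃ (k : ℕ) (χ : G →* Multiplicative (ZMod (p ^ k))),
      Function.Surjective χ ∧ ∀ x, χ x = 1 ↔ φ x = 1 := by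
  haveI := Fact.mk hp
  haveI : Finite φ.toHomUnits.range := .of_surjective _ φ.toHomUnits.rangeRestrict_surjective
  have ke : ∀ x, φ.toHomUnits.rangeRestrict x = 1 ↔ φ x = 1 := fun x =>
    Subtype.ext_iff.trans Units.ext_iff
  obtain ⟨k, hk⟩ := (IsPGroup.iff_card (p := p) (G := φ.toHomUnits.range)).1 fun x => ⟨K, by
    obtain ⟨g, rfl⟩ := φ.toHomUnits.rangeRestrict_surjective x
    rw [← map_pow, ke, h]⟩
  obtain ⟨e⟩ : Nonempty (Multiplicative (ZMod (p ^ k)) ≃* φ.toHomUnits.range) :=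
    hk ▸ ⟨zmodCyclicMulEquiv (isCyclic_subgroup_units _)⟩
  exact ⟨k, e.symm.toMonoidHom.comp φ.toHomUnits.rangeRestrict, e.symm.surjective.comp
    φ.toHomUnits.rangeRestrict_surjective, fun x =>
    (map_eq_one_iff e.symm e.symm.injective).trans (ke x)⟩

include hρ in
theorem key [Finite G] {p K : ℕ} (hp : p.Prime) (B : Finset G) (h1 : ∀ b ∈ B, B.image (b * ·) = B)
    (hB : ∀ g, g ^ p ^ K ∈ B) (nt : ¬ IsOfFinAddOrder (∑ b ∈ B, f b)) :
    ∃ (k : ℕ) (χ : G →* Multiplicative (ZMod (p ^ k))), Function.Surjective χ ∧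
      ∀ C : Finset G, C.Nonempty → (∀ x ∈ C, χ x = 1) → ¬ IsOfFinAddOrder (∑ x ∈ C, f x) ∧
        ∀ γ, χ γ ≠ 1 → ¬ IsOfFinAddOrder (∑ x ∈ C, f x - ∑ x ∈ C, f (γ * x)) := by
  have ss : sm B * sm B = (B.card : ℤ) * sm B := by
    conv_lhs => enter [1]; unfold sm
    rw [Finset.sum_mul, Finset.sum_congr rfl fun b hb => bs (h1 b hb)]
    simp
  obtain ⟨P, pr, le, s0, n0⟩ := dom (rl hρ) (sm B) _
    (Nat.cast_ne_zero.2 (Finset.card_pos.2 ⟨_, hB 1⟩).ne') ss fun n a k => nt (by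
      rw [mem_rl, ← zsmul_eq_mul, map_zsmul, ev_sm] at k
      obtain ⟨m, m0, e⟩ := isOfFinAddOrder_iff_zsmul_eq_zero.1 k
      exact isOfFinAddOrder_iff_zsmul_eq_zero.2 ⟨m * n, mul_ne_zero m0 a, by rwa [mul_smul]⟩)
  have ke : ∀ x, (Ideal.Quotient.mk P).toMonoidHom.comp (MonoidAlgebra.of ℤ G) x = 1 ↔
      MonoidAlgebra.of ℤ G x - 1 ∈ P := fun x => Ideal.Quotient.eq (y := 1)
  obtain ⟨k, χ, c1, c2⟩ := chr (K := K) hp ((Ideal.Quotient.mk P).toMonoidHom.comp
    (MonoidAlgebra.of ℤ G)) fun g => (ke _).2 ((pr.mem_or_mem (by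
      rw [sub_mul, bs (h1 _ (hB g)), one_mul, sub_self]; exact zero_mem _)).resolve_right s0)
  refine ⟨k, χ, c1, fun C c0 c1 => ?_⟩
  have sC : sm C ∉ P := fun t => n0 C.card (Nat.cast_ne_zero.2 c0.card_pos.ne') (by
    have := sub_mem t (sum_mem fun x hx => (ke x).1 ((c2 x).1 (c1 x hx)))
    rw [Finset.sum_sub_distrib, sm, sub_sub_cancel] at this
    simpa using this)
  refine ⟨fun t => sC (le ((mem_rl hρ).2 (by rwa [ev_sm]))), fun γ hγ t => ?_⟩
  have : (1 - MonoidAlgebra.of ℤ G γ) * sm C ∈ rl hρ := by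
    rw [mem_rl, sub_mul, one_mul, map_sub, ev_sm, MonoidAlgebra.of_apply, sh hρ, one_smul, ev_sm,
      map_sum]
    simpa only [hρ] using t
  exact hγ ((c2 γ).2 ((ke γ).2 (by simpa using neg_mem ((pr.mem_or_mem (le this)).resolve_right sC))))

end Vale.Agent.P014Y.Wp.Ch
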