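import Vale.Agent.P014Y.F.Qx.Fg
import Vale.Agent.P014U.Ki.Odd

/-! # P014Y, wild parity: valuations and points (kit for the isotropy) -/

set_option autoImplicit false
set_option linter.all false

open NumberField Polynomial WeierstrassCurve.Affine IsDedekindDomain
open scoped Classical

noncomputable section

namespace Vale.Agent.P014Y.Wp.Iv

open Vale.Agent.P022 P004K P004H.H666 P179W P014U
open P004M.TE (Pt ga Cv exists_pt xp_eq xp_ga ev_ga)
open P004F.Qx (zf unv)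
open P004F.Qx.Fg
open Vale.Agent.P022D.W (dec inP_le_dec phi_mem exists_phi)
open Vale.Agent.P022E.GW (Ov)
open P014Y.F.Qx (vx zf0)

section val

variable {Γ : Type} [LinearOrderedCommGroupWithZero Γ] {v : Valuation Qb Γ} {A B : ℤ}

theorem vint {x : Qb} (h : IsIntegral ℤ x) : v x ≤ 1 :=
  (Valuation.integer.integers v).mem_of_integral h.tower_top

/-- close points of the formal group -/
theorem cl (hD : 4 * A ^ 3 + 27 * B ^ 2 ≠ 0) (v2 : v 2 = 1) {a b : Qb}
    (h : (Cv Qb (A : ℚ) (B : ℚ)).Nonsingular a b) (ha : 1 < v a) {γ : Γ} (γ1 : γ ≤ 1) {a' : Qb}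
    (k : v (a' - a) ≤ γ) : ∃ b' h', v (b' - b) < v b ∧ 1 < v a' ∧
      KerV v (.some a' b' h' - .some a b h : Pt A B) ∧
      v (zf (.some a' b' h' - .some a b h : Pt A B)) ≤ γ := by
  have a0 : 0 < v a := zero_lt_one.trans ha
  obtain ⟨-, b0, e⟩ := bas h ha
  have bp : 0 < v b := v.pos_iff.2 b0
  have eb : v b ^ 2 = v a ^ 3 := by
    rw [map_div₀, Valuation.map_neg, div_pow, ← mul_div_assoc, div_eq_one_iff_eq (pow_pos bp 2).ne'] at e
    rw [← e, pow_succ' _ 2]
  have va : v a' = v a := by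
    rw [← sub_add_cancel a' a]
    exact v.map_add_eq_of_lt_right ((k.trans γ1).trans_lt ha)
  have key : ∀ b' : Qb, (Cv Qb (A : ℚ) (B : ℚ)).Nonsingular a' b' →
      v (b' - b) * v (b' + b) < v b * v b := fun b' h' => by
    rw [← map_mul, show (b' - b) * (b' + b) = (a' - a) * (a' * a' + a' * a + a * a + A) by
      linear_combination eq' h' - eq' h, ← sq (v b), eb, map_mul, pow_succ' _ 2]
    have : v (a' * a' + a' * a + a * a + A) ≤ v a ^ 2 := by
      rw [sq]
      refine v.map_add_le (v.map_add_le (v.map_add_le ?_ ?_) ?_) ((vi A).trans (one_le_mul ha.le ha.le))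
      all_goals rw [map_mul]
      all_goals try rw [va]
    exact (mul_le_mul_right this _).trans_lt
      (mul_lt_mul_of_pos_right ((k.trans γ1).trans_lt ha) (pow_pos a0 2))
  obtain ⟨b', h', hb⟩ : ∃ b', (Cv Qb (A : ℚ) (B : ℚ)).Nonsingular a' b' ∧ v (b' - b) < v b := by
    obtain ⟨y, hy⟩ := exists_pt (L := Qb) two_ne_zero (hD' hD) a'
    by_cases c : v (y - b) < v b
    · exact ⟨y, hy, c⟩
    refine ⟨-y, by simpa [negY] using (nonsingular_neg ..).2 hy, ?_⟩
    rw [show -y - b = -(y + b) by ring, Valuation.map_neg]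
    exact not_le.1 fun j => (key y hy).not_ge (mul_le_mul' (not_lt.1 c) j)
  have sb : v (b' + b) = v b := by
    have : v (2 * b) = v b := by rw [map_mul, v2, one_mul]
    rw [show b' + b = b' - b + 2 * b by ring, ← this]
    exact v.map_add_eq_of_lt_right (this ▸ hb)
  refine ⟨b', h', hb, va ▸ ha, ?_⟩
  rw [sub_eq_add_neg, Point.neg_some]
  have hn : (Cv Qb (A : ℚ) (B : ℚ)).negY a b = -b := by simp [negY]
  generalize (nonsingular_neg ..).2 h = h₃
  by_cases hxy : a' = a ∧ b' = (Cv Qb (A : ℚ) (B : ℚ)).negY a ((Cv Qb (A : ℚ) (B : ℚ)).negY a b)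
  · rw [Point.add_of_Y_eq hxy.1 hxy.2]
    exact ⟨trivial, by simp [zf0]⟩
  obtain ⟨l, n, x₃, hl, hx₃, e₁, e₂, -, s1, -, -⟩ := line_rel h'.1 h₃.1 hxy
  simp only [zero_mul, add_zero, sub_zero] at s1
  rw [hn] at e₂
  have el : v l * v (a' - a) = v b := by
    rw [← map_mul, ← sb]
    exact congrArg v (by linear_combination e₂ - e₁)
  have l1 : v b ≤ v l * γ := el ▸ mul_le_mul_right k _
  have l2 : v a ^ 3 ≤ v l ^ 2 * γ ^ 2 := by
    rw [← eb, ← mul_pow]
    exact pow_le_pow_left₀ zero_le' l1 2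
  have l3 : v a < v l ^ 2 := (lt_self_pow₀ ha (by norm_num)).trans_le
    (l2.trans (mul_le_of_le_one_right' (pow_le_one₀ zero_le' γ1)))
  have vx3 : v x₃ = v l ^ 2 := by
    rw [show x₃ = l ^ 2 - (a' + a) by linear_combination s1, ← map_pow]
    exact v.map_sub_eq_of_lt_left (by rw [map_pow]; exact v.map_add_lt (va ▸ l3) l3)
  have c : KerV v (.some a' b' h' + .some a _ h₃ : Pt A B) := by
    rw [Point.add_some hxy]
    show ¬ v _ ≤ 1
    rw [← hl, ← hx₃, vx3]
    exact not_le.2 (ha.trans l3)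
  refine ⟨c, ?_⟩
  have e3 := vx c (by rw [Point.add_some hxy]; exact Point.some_ne_zero _)
  have e4 : xp (.some a' b' h' + .some a _ h₃ : Pt A B) = x₃ := by
    rw [Point.add_some hxy, xp_some, hx₃, hl]
  rw [e4, vx3] at e3
  refine le_of_pow_le_pow_left₀ two_ne_zero zero_le' (le_of_mul_le_mul_left ?_ (a0.trans l3))
  rw [e3]
  exact (one_le_pow₀ ha.le).trans l2

end val

variable {l : ℕ} {P : Ideal (𝓞 Qb)} {O : ValuationSubring Qb} {A B : ℤ}

theorem vlt (hO : Vr P O) {g : GQ} (hg : g ∈ dec P) {x y : Qb}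
    (h : O.valuation x < O.valuation y) : O.valuation (g x) < O.valuation (g y) := by
  have y0 : y ≠ 0 := fun e => by simp [e] at h
  have := (hO.zp _).1 (Dc.zp hg ((hO.zp (x / y)).2 (by
    rwa [map_div₀, div_lt_one₀ (O.valuation.pos_iff.2 y0)])))
  rwa [map_div₀, map_div₀, div_lt_one₀ (O.valuation.pos_iff.2 ((_root_.map_ne_zero g).2 y0))] at this

theorem v_one (o : Ov l P) (hO : Vr P O) {m : ℤ} (h : ¬ (l : ℤ) ∣ m) : O.valuation m = 1 :=
  le_antisymm (vi m) (not_lt.1 fun k => h ((int_mem o.2.1 o.1 o.2.2 m).1 ((hO.mem o.2.1 m).1 k)))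

theorem v_lt (o : Ov l P) (hO : Vr P O) : O.valuation l < 1 := (hO.mem o.2.1 l).2 o.2.2

theorem v_pos (o : Ov l P) : 0 < O.valuation l := zero_lt_iff.2 (by simpa using o.1.ne_zero)

theorem arch (o : Ov l P) (hO : Vr P O) {a : Qb} (a0 : a ≠ 0) :
    ∃ N : ℕ, O.valuation l ^ N ≤ O.valuation a := by
  obtain ⟨D, D0, i⟩ := ((IsFractionRing.isAlgebraic_iff ℤ ℚ Qb).2
    (Algebra.IsAlgebraic.isAlgebraic a⁻¹)).exists_integral_multiple
  have j : O.valuation (D • a⁻¹) ≤ 1 := vint i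
  rw [zsmul_eq_mul, map_mul, map_inv₀, mul_inv_le_iff₀ (O.valuation.pos_iff.2 a0), one_mul] at j
  obtain ⟨M, m, hm, rfl⟩ := WfDvdMonoid.max_power_factor D0 (Nat.prime_iff_prime_int.1 o.1).irreducible
  exact ⟨M, by simpa [v_one o hO hm] using j⟩

/-- finitely many classes in a number field -/
theorem fin (o : Ov l P) (hO : Vr P O) (F : IntermediateField ℚ Qb) [FiniteDimensional ℚ F] {c : ℤ}
    (c0 : c ≠ 0) : ∃ T : Set Qb, T.Finite ∧ ∀ a ∈ F, O.valuation a ≤ 1 →
      ∃ t ∈ T, O.valuation (a - t) ≤ O.valuation c := by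
  have hN : NumberField F := NumberField.of_module_finite ℚ F
  let φ : 𝓞 F →+* 𝓞 Qb := RingOfIntegers.mapRingHom (algebraMap F Qb)
  let ψ : 𝓞 F →+* Qb := (algebraMap (𝓞 Qb) Qb).comp φ
  have ψ1 : ∀ x, O.valuation (ψ x) ≤ 1 := fun x => vint (φ x).isIntegral_coe
  let w : HeightOneSpectrum (𝓞 F) := ⟨P.comap φ, have := o.2.1; Ideal.comap_isPrime φ P, fun h1 => by
    have h2 : (l : 𝓞 F) ∈ P.comap φ := by
      rw [Ideal.mem_comap, map_natCast]
      exact o.2.2
    rw [h1, Ideal.mem_bot] at h2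
    exact o.1.ne_zero (Nat.cast_eq_zero.mp h2)⟩
  let I : Ideal (𝓞 F) := Ideal.span {(c : 𝓞 F)}
  have : Finite (𝓞 F ⧸ I) := Ideal.finiteQuotientOfFreeOfNeBot I (by simpa [I] using c0)
  have hI : ∀ x y : 𝓞 F, Ideal.Quotient.mk I x = Ideal.Quotient.mk I y →
      O.valuation (ψ x - ψ y) ≤ O.valuation c := fun x y e => by
    obtain ⟨z, hz⟩ := Ideal.mem_span_singleton'.1 (Ideal.Quotient.eq.1 e)
    rw [← map_sub, ← hz, map_mul, map_mul, map_intCast]
    exact mul_le_of_le_one_left' (ψ1 z)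
  refine ⟨Set.range fun x : 𝓞 F ⧸ I => ψ x.out, Set.finite_range _, fun a ha a1 => ?_⟩
  obtain ⟨s, t, s1, e⟩ : ∃ s t : 𝓞 F, O.valuation (ψ s) = 1 ∧ a * ψ s = ψ t := by
    obtain ⟨t, s, h⟩ := w.exists_primeCompl_mul_eq_or_mul_eq (K := F) ⟨a, ha⟩
    have s1 : O.valuation (ψ s) = 1 := le_antisymm (ψ1 _) (not_lt.1 fun k => s.2 ((hO.mem o.2.1 _).1 k))
    rcases h with h | h
    · exact ⟨s, t, s1, congrArg (algebraMap F Qb) h⟩
    · have h' : a * ψ t = ψ s := congrArg (algebraMap F Qb) h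
      refine ⟨t, s, le_antisymm (ψ1 _) ?_, h'⟩
      rw [← s1, ← h', map_mul]
      exact mul_le_of_le_one_left' a1
  obtain ⟨i, j, ij, k⟩ := Set.finite_univ.exists_lt_map_eq_of_forall_mem
    (f := fun i : ℕ => Ideal.Quotient.mk I (s ^ i)) fun _ => Set.mem_univ _
  obtain ⟨d, rfl⟩ := Nat.exists_eq_add_of_lt ij
  have k1 := hI _ _ k
  rw [map_pow, map_pow, show ψ s ^ i - ψ s ^ (i + d + 1) = ψ s ^ i * (1 - ψ s ^ (d + 1)) by ring,
    map_mul, map_pow, s1, one_pow, one_mul] at k1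
  refine ⟨_, ⟨Ideal.Quotient.mk I (t * s ^ d), rfl⟩, ?_⟩
  have k2 := hI (t * s ^ d) (Ideal.Quotient.mk I (t * s ^ d)).out (Ideal.Quotient.mk_out _).symm
  rw [← sub_add_sub_cancel a (ψ (t * s ^ d))]
  refine O.valuation.map_add_le ?_ k2
  rw [map_mul, map_pow, ← e, show a - a * ψ s * ψ s ^ d = a * (1 - ψ s ^ (d + 1)) by ring, map_mul]
  exact (mul_le_of_le_one_left' a1).trans k1

/-- **every point has a multiple in the kernel of the reduction** -/
theorem mk1 (hD : 4 * A ^ 3 + 27 * B ^ 2 ≠ 0) (o : Ov l P) (hO : Vr P O) (y : Pt A B) :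
    ∃ N : ℕ, N ≠ 0 ∧ KerV O.valuation (N • y) := by
  obtain ⟨F, fF, hF⟩ := (krullTopology_mem_nhds_one_iff ℚ Qb _).1 (ev_ga 1 y)
  by_contra! c
  have c0 : (2 * (4 * A ^ 3 + 27 * B ^ 2)) ^ 2 ≠ 0 := pow_ne_zero 2 (mul_ne_zero two_ne_zero hD)
  obtain ⟨T, fT, hT⟩ := fin o hO F (c := l * (2 * (4 * A ^ 3 + 27 * B ^ 2)) ^ 2)
    (mul_ne_zero (Nat.cast_ne_zero.2 o.1.ne_zero) c0)
  have lt : O.valuation ((l * (2 * (4 * A ^ 3 + 27 * B ^ 2)) ^ 2 : ℤ) : Qb) <
      O.valuation (2 * (4 * A ^ 3 + 27 * B ^ 2 : ℤ)) ^ 2 := by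
    rw [Int.cast_mul, map_mul, Int.cast_natCast, Int.cast_pow, map_pow, Int.cast_mul, Int.cast_ofNat]
    refine mul_lt_of_lt_one_left (pow_pos (O.valuation.pos_iff.2 ?_) 2) (v_lt o hO)
    exact mul_ne_zero two_ne_zero (Int.cast_ne_zero.2 hD)
  choose t t1 t2 using fun i : ℕ => hT (xp ((i + 1) • y)) (by
    rw [← InfiniteGalois.fixedField_fixingSubgroup F]
    rintro ⟨g, hg⟩
    show g _ = _
    rw [← xp_ga, map_nsmul, show ga g y = y from (hF hg).trans (P004M.TE.ga_one y)]) (by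
      have := c _ i.succ_ne_zero
      generalize (i + 1) • y = z at this
      rcases z with _ | ⟨a, b, k⟩
      · exact absurd trivial this
      · exact not_not.1 this)
  obtain ⟨i, j, ij, k⟩ := fT.exists_lt_map_eq_of_forall_mem t1
  obtain ⟨d, rfl⟩ := Nat.exists_eq_add_of_lt ij
  rcases P014T.Ki.near (c _ (i + d + 1).succ_ne_zero) (c _ i.succ_ne_zero) (by
    rw [← sub_sub_sub_cancel_right _ _ (t i)]
    exact (O.valuation.map_sub_le (k ▸ t2 _) (t2 i)).trans_lt lt) with r | r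
  · refine c (d + 1) d.succ_ne_zero ?_
    rwa [show (i + d + 1).succ = d + 1 + i.succ by omega, add_smul, add_sub_cancel_right] at r
  · rw [sub_neg_eq_add, ← add_smul] at r
    exact c _ (by omega) r

theorem res1 (o : Ov l P) (hO : Vr P O) {a : Qb} (ha : ∀ g ∈ dec P, g a = a)
    (a1 : O.valuation a ≤ 1) : ∃ i : ℤ, O.valuation (a - i) < 1 := by
  obtain ⟨φ, hφ⟩ := exists_phi o.1 o.2.1 o.2.2
  have := Fact.mk o.1
  have k : O.valuation (a - a ^ l) < 1 := by
    rw [← hO.zp]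
    simpa only [ha φ (phi_mem o.1 o.2.1 hφ)] using frob o.2.1 hφ ((hO.ip a).2 a1)
  have r : ∀ x y : O, IsLocalRing.residue O x = IsLocalRing.residue O y ↔
      O.valuation ((x : Qb) - y) < 1 := fun x y => by
    rw [← sub_eq_zero, ← map_sub, IsLocalRing.residue_eq_zero_iff,
      ValuationSubring.valuation_lt_one_iff]
    rfl
  have c : (l : IsLocalRing.ResidueField O) = 0 := by
    simpa using (r l 0).2 (by simpa using v_lt o hO)
  have : CharP (IsLocalRing.ResidueField O) l := (CharP.charP_iff_prime_eq_zero o.1).2 c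
  let x : O := ⟨a, (O.valuation_le_one_iff a).1 a1⟩
  obtain ⟨i, hi⟩ := (mem_bot_iff_intCast l _).1 ((Subfield.mem_bot_iff_pow_eq_self
    (IsLocalRing.ResidueField O) l (x := IsLocalRing.residue O x)).2 (by
      rw [← map_pow]; exact ((r x (x ^ l)).2 k).symm))
  exact ⟨i, by simpa using (r x i).1 (by rw [map_intCast, hi])⟩

/-- **the rationals are dense** in the field fixed by the decomposition group -/
theorem den (o : Ov l P) (hO : Vr P O) {a : Qb} (ha : ∀ g ∈ dec P, g a = a) (M : ℕ) :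
    ∃ r : ℚ, O.valuation (a - r) ≤ O.valuation l ^ M := by
  have l0 : (l : Qb) ≠ 0 := Nat.cast_ne_zero.2 o.1.ne_zero
  have key : ∀ (M : ℕ) (a : Qb), (∀ g ∈ dec P, g a = a) → O.valuation a ≤ 1 →
      ∃ r : ℤ, O.valuation (a - r) ≤ O.valuation l ^ M := by
    intro M
    induction M with
    | zero => exact fun a _ h => ⟨0, by simpa using h⟩
    | succ M ih =>
      intro a ha h
      obtain ⟨i, hi⟩ := res1 o hO ha h
      obtain ⟨r, hr⟩ := ih ((a - i) / l) (fun g hg => by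
        rw [map_div₀, map_sub, ha g hg, map_intCast, map_natCast]) ((hO.ip _).1 (unv l P o.1 o.2.1 o.2.2 _
          (fun g hg => by rw [map_sub, ha g (inP_le_dec hg), map_intCast]) ((hO.zp _).2 hi)))
      refine ⟨i + l * r, ?_⟩
      rw [show a - (i + l * r : ℤ) = l * ((a - i) / l - r) by push_cast; field_simp; ring, map_mul,
        pow_succ']
      exact mul_le_mul_right hr _
  by_cases a0 : a = 0
  · exact ⟨0, by simp [a0]⟩
  obtain ⟨N, hN⟩ := arch o hO (inv_ne_zero a0)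
  obtain ⟨r, hr⟩ := key (N + M) (l ^ N * a) (fun g hg => by rw [map_mul, map_pow, map_natCast, ha g hg])
    (by rwa [map_inv₀, ← one_div, le_div_iff₀ (O.valuation.pos_iff.2 a0), ← map_pow, ← map_mul] at hN)
  refine ⟨r / l ^ N, le_of_mul_le_mul_left ?_ (pow_pos (v_pos o) N)⟩
  rw [← pow_add, ← map_pow, ← map_mul, show (l : Qb) ^ N * (a - (r / l ^ N : ℚ)) = l ^ N * a - r by
    push_cast; field_simp]
  exact hr

end Vale.Agent.P014Y.Wp.Iv
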